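import Vale.Agent.P092.H71.P.CLGap
import Vale.Agent.P092.H956.SpG5

/-!
P092 (helper71), TEAM P, stages 2 and 3, [CL-GAP], Witt index two, `2 ≠ 0`: the walls `b1`, `b2` of
the letters of `CL/Lt` have the gap `LeviGap`, from the gap of the walls of `Sp_4(k₀)` (helper956),
`k₀` the fixed field of `σ`, pushed to the group of the form.
-/

set_option linter.all false

open scoped Matrix
open Set Filter Topology MeasureTheory Matrix Module

namespace Vale.Agent.P092.H71.CLP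

open Vale.Agent.P092.H303 (FormGroup Idx hyp torF torF_mem root2 dgF hypAt_l hypAt_r)
open Vale.Agent.P092.H714.Cl
open Vale.Agent.P092.H933
open Vale.Agent.P092.H71.CLO
open Vale.Agent.P092.H71.CLG
open Vale.Agent.P092.CL (ta nmM V2 b1 b2)
open Vale.Agent.P092.RC (Moore)
open Vale.Agent.P092.H874.CLAdm (moore_nm)
open Vale.Agent.P092.SP4 (J4 S4 mem_S4)

/-- `0, 1, 2, 3` to `+0, +1, -1, -0` -/
def e4 : Fin 4 ≃ Fin 2 ⊕ Fin 2 where
  toFun := ![.inl 0, .inl 1, .inr 1, .inr 0]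
  invFun := Sum.elim ![0, 1] ![3, 2]
  left_inv x := by fin_cases x <;> rfl
  right_inv x := by rcases x with x | x <;> fin_cases x <;> rfl

section alg

variable {k k₀ : Type} [Field k] [Field k₀] {ι : Type} [Fintype ι] [DecidableEq ι]
  (j : k₀ →+* k) {σ : k →+* k} {ε : k} {J₀ : Matrix ι ι k}

/-- the diagonal matrix `1, 1, c, c` -/
def dM (c : k) : Matrix (Fin 2 ⊕ Fin 2) (Fin 2 ⊕ Fin 2) k := fromBlocks 1 0 0 (c • 1)

theorem dM_mul (c c' : k) : dM c * dM c' = dM (c * c') := by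
  unfold dM
  rw [fromBlocks_multiply]
  simp [smul_smul, mul_comm]

theorem dM_one : dM (1 : k) = 1 := by
  unfold dM
  rw [one_smul, fromBlocks_one]

theorem dM_map (c : k) : ((dM c).map σ)ᵀ = dM (σ c) := by
  unfold dM
  rw [fromBlocks_map, fromBlocks_transpose, Matrix.map_one σ (map_zero σ) (map_one σ),
    transpose_one]
  congr 1
  · ext i j
    simp
  · ext i j
    simp
  · ext i j
    by_cases h : i = j
    · subst h
      simp
    · simp [h, Ne.symm h]

/-- the matrix of `g`, reindexed -/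
def aM (g : Matrix (Fin 4) (Fin 4) k₀) : Matrix (Fin 2 ⊕ Fin 2) (Fin 2 ⊕ Fin 2) k :=
  (g.map j).submatrix e4.symm e4.symm

theorem aM_mul (g h : Matrix (Fin 4) (Fin 4) k₀) : aM j (g * h) = aM j g * aM j h := by
  unfold aM
  rw [Matrix.map_mul, Matrix.submatrix_mul_equiv]

theorem aM_one : aM j (1 : Matrix (Fin 4) (Fin 4) k₀) = 1 := by
  unfold aM
  rw [Matrix.map_one j (map_zero j) (map_one j), Matrix.submatrix_one_equiv]

theorem aM_T (g : Matrix (Fin 4) (Fin 4) k₀) : aM j gᵀ = (aM j g)ᵀ := rfl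

theorem aM_J : aM j (J4 k₀) = fromBlocks 0 1 (-1) 0 := by
  ext x y
  rcases x with x | x <;> rcases y with y | y <;> fin_cases x <;> fin_cases y <;>
    simp [aM, J4, e4, Matrix.one_apply]

theorem aM_det (g : Matrix (Fin 4) (Fin 4) k₀) : (aM j g).det = j g.det := by
  unfold aM
  rw [Matrix.det_submatrix_equiv_self, RingHom.map_det]
  rfl

theorem aM_fix (hσj : ∀ x, σ (j x) = j x) (g : Matrix (Fin 4) (Fin 4) k₀) :
    ((aM j g).map σ)ᵀ = (aM j g)ᵀ := by
  ext x y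
  exact hσj _

/-- the image of `g` -/
def phM (c : k) (ι : Type) [DecidableEq ι] (g : Matrix (Fin 4) (Fin 4) k₀) :
    Matrix (Idx 2 ι) (Idx 2 ι) k :=
  fromBlocks (dM c * aM j g * dM c⁻¹) 0 0 1

theorem phM_mul {c : k} (hc : c ≠ 0) (g h : Matrix (Fin 4) (Fin 4) k₀) :
    phM j c ι (g * h) = phM j c ι g * phM j c ι h := by
  unfold phM
  rw [fromBlocks_multiply]
  simp only [Matrix.mul_zero, Matrix.zero_mul, add_zero, zero_add, Matrix.mul_one]
  congr 1
  rw [aM_mul]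
  have h1 : dM c⁻¹ * dM c = 1 := by rw [dM_mul, inv_mul_cancel₀ hc, dM_one]
  calc dM c * (aM j g * aM j h) * dM c⁻¹ = dM c * aM j g * 1 * aM j h * dM c⁻¹ := by
        simp only [Matrix.mul_assoc, Matrix.one_mul]
    _ = _ := by
        rw [← h1]
        simp only [Matrix.mul_assoc]

theorem phM_one {c : k} (hc : c ≠ 0) : phM j c ι (1 : Matrix (Fin 4) (Fin 4) k₀) = 1 := by
  unfold phM
  rw [aM_one, Matrix.mul_one, dM_mul, mul_inv_cancel₀ hc, dM_one, fromBlocks_one]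

theorem phM_det {c : k} (hc : c ≠ 0) {g : Matrix (Fin 4) (Fin 4) k₀} (hg : g.det = 1) :
    (phM j c ι g).det = 1 := by
  unfold phM
  rw [det_fromBlocks_zero₂₁, det_one, mul_one, det_mul, det_mul, aM_det, hg, map_one, mul_one,
    ← det_mul, dM_mul, mul_inv_cancel₀ hc, dM_one, det_one]

theorem phM_form (hσj : ∀ x, σ (j x) = j x) {c : k} (hc : c ≠ 0) (hc' : c + ε * σ c = 0)
    {g : Matrix (Fin 4) (Fin 4) k₀} (hg : g * J4 k₀ * gᵀ = J4 k₀) :
    phM j c ι g * hyp 2 ε J₀ * ((phM j c ι g).map σ)ᵀ = hyp 2 ε J₀ := by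
  have hs : σ c ≠ 0 := (map_ne_zero σ).2 hc
  have h0 : ∀ a b : Type, ((0 : Matrix a b k).map σ)ᵀ = 0 := by
    intro a b
    ext i j
    simp
  have h1 : aM j g * fromBlocks 0 1 (-1) 0 * (aM j g)ᵀ = fromBlocks 0 1 (-1) 0 := by
    rw [← aM_J j, ← aM_T, ← aM_mul, ← aM_mul, hg]
  have h2 : ((dM c * aM j g * dM c⁻¹).map σ)ᵀ = dM (σ c)⁻¹ * (aM j g)ᵀ * dM (σ c) := by
    rw [Matrix.map_mul, Matrix.map_mul, transpose_mul, transpose_mul, dM_map, dM_map,
      aM_fix j hσj, map_inv₀, Matrix.mul_assoc]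
  have h3 : dM c⁻¹ * fromBlocks 0 1 (ε • 1) 0 * dM (σ c)⁻¹ =
      (σ c)⁻¹ • (fromBlocks 0 1 (-1) 0 : Matrix (Fin 2 ⊕ Fin 2) (Fin 2 ⊕ Fin 2) k) := by
    have e : c⁻¹ * ε = -(σ c)⁻¹ := by
      field_simp
      linear_combination hc'
    unfold dM
    rw [fromBlocks_multiply, fromBlocks_multiply, fromBlocks_smul]
    simp only [Matrix.mul_zero, Matrix.zero_mul, add_zero, zero_add, Matrix.mul_one,
      Matrix.one_mul, Matrix.mul_smul, Matrix.smul_mul, smul_zero, smul_smul, smul_neg]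
    rw [mul_comm ε c⁻¹, e, neg_smul]
  have h4 : dM c * fromBlocks 0 1 (-1) 0 * dM (σ c) =
      σ c • (fromBlocks 0 1 (ε • 1) 0 : Matrix (Fin 2 ⊕ Fin 2) (Fin 2 ⊕ Fin 2) k) := by
    have e : -c = σ c * ε := by linear_combination (-1 : k) * hc'
    unfold dM
    rw [fromBlocks_multiply, fromBlocks_multiply, fromBlocks_smul]
    simp only [Matrix.mul_zero, Matrix.zero_mul, add_zero, zero_add, Matrix.mul_one,
      Matrix.one_mul, Matrix.mul_smul, Matrix.smul_mul, smul_zero, smul_smul, smul_neg]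
    rw [← e, neg_smul]
  have h5 : dM c * aM j g * dM c⁻¹ * fromBlocks 0 1 (ε • 1) 0 *
      (dM (σ c)⁻¹ * (aM j g)ᵀ * dM (σ c)) = fromBlocks 0 1 (ε • 1) 0 := by
    calc dM c * aM j g * dM c⁻¹ * fromBlocks 0 1 (ε • 1) 0 *
          (dM (σ c)⁻¹ * (aM j g)ᵀ * dM (σ c)) =
        dM c * (aM j g * (dM c⁻¹ * fromBlocks 0 1 (ε • 1) 0 * dM (σ c)⁻¹) * (aM j g)ᵀ) *
          dM (σ c) := by simp only [Matrix.mul_assoc]
      _ = (σ c)⁻¹ • (dM c * (aM j g * fromBlocks 0 1 (-1) 0 * (aM j g)ᵀ) * dM (σ c)) := by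
          rw [h3]
          simp only [Matrix.mul_smul, Matrix.smul_mul]
      _ = fromBlocks 0 1 (ε • 1) 0 := by
          rw [h1, h4, smul_smul, inv_mul_cancel₀ hs, one_smul]
  unfold phM hyp
  rw [fromBlocks_map, fromBlocks_transpose, h2, Matrix.map_one σ (map_zero σ) (map_one σ),
    transpose_one, h0, h0, fromBlocks_multiply, fromBlocks_multiply]
  simp only [Matrix.mul_zero, Matrix.zero_mul, add_zero, zero_add, Matrix.mul_one,
    Matrix.one_mul]
  rw [h5]

/-- **`Sp_4(k₀)` in the group of a form of Witt index two** -/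
def ph (hσj : ∀ x, σ (j x) = j x) {c : k} (hc : c ≠ 0) (hc' : c + ε * σ c = 0) :
    S4 k₀ →* FormGroup σ (hyp 2 ε J₀) where
  toFun g := ⟨⟨phM j c ι g.1.1, phM_det j hc g.1.2⟩, phM_form j hσj hc hc' (mem_S4.1 g.2)⟩
  map_one' := Subtype.ext (Subtype.ext (phM_one j hc))
  map_mul' g h := Subtype.ext (Subtype.ext (phM_mul j hc g.1.1 h.1.1))

/-- the torus -/
theorem phM_diag {c : k} (hc : c ≠ 0) {w : k} {d : Fin 4 → k₀} {l : Fin 2 → ℤ}
    (h0 : j (d 0) = w ^ l 0) (h1 : j (d 1) = w ^ l 1) (h2 : j (d 2) = w ^ (-l 1))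
    (h3 : j (d 3) = w ^ (-l 0)) :
    phM j c ι (Matrix.diagonal d) = Matrix.diagonal (dgF 2 ι w l) := by
  have e : aM j (Matrix.diagonal d) =
      Matrix.diagonal (Sum.elim (fun i => w ^ l i) fun i => w ^ (-l i)) := by
    ext x y
    rcases x with x | x <;> rcases y with y | y <;> fin_cases x <;> fin_cases y <;>
      simp [aM, e4, Matrix.diagonal_apply, h0, h1, h2, h3]
  have e' : dM c * Matrix.diagonal (Sum.elim (fun i => w ^ l i) fun i => w ^ (-l i)) * dM c⁻¹ =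
      Matrix.diagonal (Sum.elim (fun i => w ^ l i) fun i => w ^ (-l i)) := by
    have hd : ∀ a : k, dM a = Matrix.diagonal (Sum.elim (fun _ => 1) fun _ => a) := by
      intro a
      have h1 : (a • fun _ : Fin 2 => (1 : k)) = fun _ => a := by
        funext x
        simp
      unfold dM
      rw [← Matrix.diagonal_one, ← Matrix.diagonal_smul, ← Matrix.fromBlocks_diagonal, h1]
    rw [hd, hd, Matrix.diagonal_mul_diagonal, Matrix.diagonal_mul_diagonal]
    congr 1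
    funext x
    rcases x with x | x
    · simp
    · simp only [Sum.elim_inr]
      field_simp
  unfold phM dgF
  rw [e, e', ← Matrix.diagonal_one, Matrix.fromBlocks_diagonal]

end alg

section gap

variable {k k₀ : Type} [NontriviallyNormedField k] [ProperSpace k] [NontriviallyNormedField k₀]
  [ProperSpace k₀] {ι : Type} [Fintype ι] [DecidableEq ι] (j : k₀ →+* k) {σ : k →+* k} {ε : k}
  {J₀ : Matrix ι ι k} (hσj : ∀ x, σ (j x) = j x)

omit [ProperSpace k] [ProperSpace k₀] in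
theorem ph_cont (hj : Continuous j) {c : k} (hc : c ≠ 0) (hc' : c + ε * σ c = 0) :
    Continuous (ph (ι := ι) (J₀ := J₀) j hσj hc hc') := by
  refine Continuous.subtype_mk (Continuous.subtype_mk ?_ _) _
  have h1 : Continuous fun g : S4 k₀ => g.1.1 :=
    continuous_subtype_val.comp continuous_subtype_val
  have h2 : Continuous fun g : S4 k₀ => aM j g.1.1 :=
    (h1.matrix_map hj).matrix_submatrix _ _
  exact (((continuous_const.matrix_mul h2).matrix_mul continuous_const).matrix_fromBlocks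
    continuous_const continuous_const continuous_const)

include hσj in
/-- **[CL-GAP], Witt index two**, with any model of the fixed field -/
theorem gap2_of (hF : Frm σ ε (hyp 2 ε J₀)) (hσ : ∀ x, ‖σ x‖ = ‖x‖) (hj : Continuous j)
    (h2 : (2 : k₀) ≠ 0) {w : k} (hw : w ≠ 0) (hσw : σ w = w) (hw1 : ‖w‖ < 1) (v : k₀ˣ)
    (hv : j v = w) :
    LeviGap (b1 (s := 0) (ε := ε) (J₀ := J₀) hw hσw) ∧
      LeviGap (b2 (s := 0) (ε := ε) (J₀ := J₀) hw hσw) := by
  obtain ⟨c, hc, hc'⟩ := hF.cc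
  have hvi : j ((v⁻¹ : k₀ˣ) : k₀) = w⁻¹ := by
    rw [Units.val_inv_eq_inv_val, map_inv₀, hv]
  have e1 : ph (ι := ι) (J₀ := J₀) j hσj hc hc' ⟨SP4.b1 v⁻¹, SP4.b1_mem _⟩ =
      b1 (s := 0) hw hσw := by
    apply Subtype.ext
    apply Subtype.ext
    refine phM_diag j hc ?_ ?_ ?_ ?_
    · simp
      exact hv
    · simp
    · simp
    · simp
      exact hv
  have e2 : ph (ι := ι) (J₀ := J₀) j hσj hc hc' ⟨SP4.b2 v⁻¹, SP4.b2_mem _⟩ =
      b2 (s := 0) hw hσw := by
    apply Subtype.ext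
    apply Subtype.ext
    refine phM_diag j hc ?_ ?_ ?_ ?_
    · simp
      exact hv
    · simp
      exact hv
    · simp
      exact hv
    · simp
      exact hv
  have hM : Moore (Set.range (ph (ι := ι) (J₀ := J₀) j hσj hc hc')) := by
    refine moore_nm hσ hF fun C => ?_
    have h3 := nm_tor (ι := ι) (s := 0) (ε := ε) (J₀ := J₀) hw hσw hw1 (l := fun _ => 1) rfl
    obtain ⟨N, hN⟩ := (h3.eventually_ge_atTop C).exists
    refine ⟨_, ⟨(⟨SP4.b2 v⁻¹, SP4.b2_mem _⟩ : S4 k₀) ^ N, rfl⟩, ?_⟩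
    rw [map_pow, e2]
    exact hN
  refine ⟨?_, ?_⟩
  · refine push (ph (ι := ι) (J₀ := J₀) j hσj hc hc') (ph_cont j hσj hj hc hc') hM
      (H956.leviGap_b1 h2 v⁻¹) fun l hl => ?_
    rw [← e1]
    exact hl.map _
  · refine push (ph (ι := ι) (J₀ := J₀) j hσj hc hc') (ph_cont j hσj hj hc hc') hM
      (H956.leviGap_b2 h2 v⁻¹) fun l hl => ?_
    rw [← e2]
    exact hl.map _

end gap

section fixed

variable {k : Type} [NontriviallyNormedField k] [ProperSpace k] {ι : Type} [Fintype ι]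
  [DecidableEq ι] {σ : k →+* k} {ε : k} {J₀ : Matrix ι ι k}

/-- **[CL-GAP], Witt index two, `2 ≠ 0`: both walls** -/
theorem gap2 (hF : Frm σ ε (hyp 2 ε J₀)) (hσ : ∀ x, ‖σ x‖ = ‖x‖) (h2 : (2 : k) ≠ 0) {w : k}
    (hw : w ≠ 0) (hσw : σ w = w) (hw1 : ‖w‖ < 1) :
    LeviGap (b1 (s := 0) (ε := ε) (J₀ := J₀) hw hσw) ∧
      LeviGap (b2 (s := 0) (ε := ε) (J₀ := J₀) hw hσw) := by
  let F : Subfield k := RingHom.eqLocusField σ (RingHom.id k)
  have hmem : ∀ x, x ∈ F ↔ σ x = x := fun x => Iff.rfl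
  letI iF : NontriviallyNormedField F :=
    { (inferInstance : NormedField F) with
      non_trivial := ⟨⟨w⁻¹, (hmem _).2 (by rw [map_inv₀, hσw])⟩, by
        change 1 < ‖w⁻¹‖
        rw [norm_inv]
        exact (one_lt_inv₀ (norm_pos_iff.2 hw)).2 hw1⟩ }
  have hi : Isometry (Subtype.val : F → k) := Isometry.of_dist_eq fun _ _ => rfl
  have hcl : IsClosed (F : Set k) := isClosed_eq (continuous_of_norm hσ) continuous_id
  haveI : ProperSpace F := by
    have hce : IsClosedEmbedding (Subtype.val : F → k) :=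
      ⟨hi.isEmbedding, by rw [Subtype.range_coe]; exact hcl⟩
    refine ⟨fun x r => ?_⟩
    have h3 := hce.isCompact_preimage (isCompact_closedBall (x : k) r)
    have h4 : (Subtype.val : F → k) ⁻¹' Metric.closedBall (x : k) r = Metric.closedBall x r := by
      ext y
      rfl
    rwa [h4] at h3
  have h2' : (2 : F) ≠ 0 := by
    intro h
    apply h2
    have := congrArg (Subtype.val : F → k) h
    exact this
  have hw0 : (⟨w, (hmem _).2 hσw⟩ : F) ≠ 0 := fun h => hw (congrArg Subtype.val h)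
  exact gap2_of (k₀ := F) F.subtype (fun x => x.2) hF hσ hi.continuous h2' hw hσw hw1
    (Units.mk0 (⟨w, (hmem _).2 hσw⟩ : F) hw0) rfl

end fixed

/-- **[CL-GAP]: both walls, Witt index at least two, `2 ≠ 0` if it is two** -/
theorem gap_lt {k : Type} [NontriviallyNormedField k] [ProperSpace k] {ι : Type} [Fintype ι]
    [DecidableEq ι] {s : ℕ} {σ : k →+* k} {ε : k} {J₀ : Matrix ι ι k}
    (hF : Frm σ ε (hyp (s + 2) ε J₀)) (hσ : ∀ x, ‖σ x‖ = ‖x‖) (hk : LocK k) {w : k} (hw : w ≠ 0)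
    (hσw : σ w = w) (hw1 : ‖w‖ < 1) (h : (2 : k) ≠ 0 ∨ 1 ≤ s) :
    LeviGap (b1 (s := s) (ε := ε) (J₀ := J₀) hw hσw) ∧
      LeviGap (b2 (s := s) (ε := ε) (J₀ := J₀) hw hσw) := by
  rcases Nat.eq_zero_or_pos s with h0 | h0
  · subst h0
    exact gap2 hF hσ (h.resolve_right (by norm_num)) hw hσw hw1
  · exact ⟨gap3_b1 hF hw hσw hσ hk h0 hw1, gap3_b2 hF hw hσw hσ hk h0⟩

end Vale.Agent.P092.H71.CLP
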