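import Vale.Agent.P092.H71.P.CLOrb
import Mathlib.Topology.Algebra.Group.OpenMapping

/-!
P092 (helper71), TEAM P, tracks 2 and 3: properness (`PrpG`) of a surjective continuous homomorphism
with compact kernel, in particular of the quotients of the matrix groups in which the kernel acts by
scalars.
-/

set_option linter.all false

open Set Filter Topology Matrix
open scoped Pointwise

namespace Vale.Agent.P092.H71.P

section gen

variable {G₀ E : Type} [Group G₀] [TopologicalSpace G₀] [IsTopologicalGroup G₀]
  [LocallyCompactSpace G₀] [SigmaCompactSpace G₀] [Group E] [TopologicalSpace E]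
  [IsTopologicalGroup E] [LocallyCompactSpace E] [T2Space E] {ι : G₀ →* E}

/-- **A continuous surjective homomorphism with compact kernel is proper.** -/
theorem prpG_of_ker (hc : Continuous ι) (hs : Function.Surjective ι)
    (hk : IsCompact (ι.ker : Set G₀)) : PrpG ι := by
  have ho : IsOpenMap ι := MonoidHom.isOpenMap_of_sigmaCompact ι hs hc
  intro C hC
  obtain ⟨U, hU, hU1⟩ := exists_compact_mem_nhds (1 : G₀)
  have hcov : ∀ x ∈ C, ∃ g : G₀, ι g = x := fun x _ => hs x
  have hnhd : ∀ x ∈ C, (ι '' ((fun u => Function.surjInv hs x * u) '' U)) ∈ 𝓝 x := by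
    intro x _
    have h1 : (fun u => Function.surjInv hs x * u) '' U ∈ 𝓝 (Function.surjInv hs x) := by
      have h2 := (Homeomorph.mulLeft (Function.surjInv hs x)).isOpenMap.image_mem_nhds hU1
      simpa using h2
    have h3 := ho.image_mem_nhds h1
    rwa [Function.surjInv_eq hs] at h3
  obtain ⟨t, ht⟩ := hC.elim_nhds_subcover' (fun x _ =>
    ι '' ((fun u => Function.surjInv hs x * u) '' U)) hnhd
  refine ⟨⋃ x ∈ t, ((fun u => Function.surjInv hs (x : E) * u) '' U) * (ι.ker : Set G₀),
    ?_, ?_⟩
  · exact t.isCompact_biUnion fun x _ => (hU.image (continuous_const.mul continuous_id)).mul hk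
  · intro g hg
    obtain ⟨x, hx, hgx⟩ := mem_iUnion₂.1 (ht hg)
    obtain ⟨v, hv, hvg⟩ := hgx
    refine mem_iUnion₂.2 ⟨x, hx, ?_⟩
    refine ⟨v, hv, v⁻¹ * g, ?_, ?_⟩
    · change v⁻¹ * g ∈ ι.ker
      rw [MonoidHom.mem_ker, map_mul, map_inv, hvg, inv_mul_cancel]
    · change v * (v⁻¹ * g) = g
      rw [mul_inv_cancel_left]

end gen

section mat

variable {k : Type} [NontriviallyNormedField k] {n : Type} [Fintype n] [DecidableEq n]

/-- the scalars in `SL_n(k)` are finitely many -/
theorem scalar_finite [Nonempty n] :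
    {g : SpecialLinearGroup n k | ∃ c : k, g.1 = c • (1 : Matrix n n k)}.Finite := by
  have h1 : {c : k | c ^ Fintype.card n = 1}.Finite := by
    have hp : (Polynomial.X ^ Fintype.card n - 1 : Polynomial k) ≠ 0 :=
      Polynomial.X_pow_sub_C_ne_zero Fintype.card_pos 1
    refine ((Polynomial.X ^ Fintype.card n - 1 : Polynomial k).rootSet_finite k).subset ?_
    intro c hc
    rw [Polynomial.mem_rootSet]
    refine ⟨hp, ?_⟩
    have hc' : c ^ Fintype.card n = 1 := hc
    simp [hc']
  obtain ⟨i₀⟩ := ‹Nonempty n›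
  refine Set.Finite.of_finite_image (f := fun g : SpecialLinearGroup n k => g.1 i₀ i₀)
    (h1.subset ?_) ?_
  · rintro _ ⟨g, ⟨c, hc⟩, rfl⟩
    have h2 : g.1 i₀ i₀ = c := by rw [hc]; simp
    have h3 := g.2
    rw [hc, Matrix.det_smul, Matrix.det_one, mul_one] at h3
    change (g.1 i₀ i₀) ^ Fintype.card n = 1
    rw [h2]; exact h3
  · rintro g ⟨c, hc⟩ g' ⟨c', hc'⟩ h
    have h2 : g.1 i₀ i₀ = c := by rw [hc]; simp
    have h3 : g'.1 i₀ i₀ = c' := by rw [hc']; simp
    have h4 : g.1 i₀ i₀ = g'.1 i₀ i₀ := h
    apply Subtype.ext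
    rw [hc, hc', ← h2, ← h3, h4]

/-- the quotients of a closed matrix group by scalars are proper -/
theorem prpG_of_scalar [ProperSpace k] [Nonempty n] {G : Subgroup (SpecialLinearGroup n k)}
    (hG : IsClosed (G : Set (SpecialLinearGroup n k))) {E : Type} [Group E] [TopologicalSpace E]
    [IsTopologicalGroup E] [LocallyCompactSpace E] [T2Space E] {ι : G →* E} (hc : Continuous ι)
    (hs : Function.Surjective ι) (hk : ∀ g : G, ι g = 1 → ∃ c : k, g.1.1 = c • (1 : Matrix n n k)) :
    PrpG ι := by
  have h1 : Topology.IsClosedEmbedding (fun g : SpecialLinearGroup n k => g.1) := by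
    refine ⟨⟨⟨rfl⟩, Subtype.val_injective⟩, ?_⟩
    have h2 : Set.range (fun g : SpecialLinearGroup n k => g.1) = {A | A.det = 1} := by
      ext A
      constructor
      · rintro ⟨g, rfl⟩
        exact g.2
      · intro hA
        exact ⟨⟨A, hA⟩, rfl⟩
    rw [h2]
    exact isClosed_eq (continuous_id.matrix_det) continuous_const
  haveI : ProperSpace (n → n → k) := inferInstance
  haveI hM : LocallyCompactSpace (Matrix n n k) :=
    (inferInstance : LocallyCompactSpace (n → n → k))
  haveI hM' : SecondCountableTopology (Matrix n n k) :=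
    (inferInstance : SecondCountableTopology (n → n → k))
  haveI : LocallyCompactSpace (SpecialLinearGroup n k) := h1.locallyCompactSpace
  haveI : SecondCountableTopology (SpecialLinearGroup n k) := h1.isEmbedding.secondCountableTopology
  haveI : LocallyCompactSpace G := hG.isClosedEmbedding_subtypeVal.locallyCompactSpace
  haveI : SecondCountableTopology G :=
    hG.isClosedEmbedding_subtypeVal.isEmbedding.secondCountableTopology
  haveI : SigmaCompactSpace G := inferInstance
  refine prpG_of_ker hc hs ?_
  have h3 : (ι.ker : Set G).Finite := by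
    refine Set.Finite.of_finite_image (f := fun g : G => g.1)
      (scalar_finite.subset ?_) Subtype.val_injective.injOn
    rintro _ ⟨g, hg, rfl⟩
    exact hk g hg
  exact h3.isCompact

end mat

end Vale.Agent.P092.H71.P
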