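import Vale.Agent.P092.H71.P.SprSp
import Vale.Agent.P092.SP.Defs
import Vale.Agent.P092.H35.Spg

/-!
P092 (helper71), TEAM P, block [P-ORB], part 3: the letters of `SP/Defs`. `Spr` (hence `CTA.ORBG`)
for the two walls `B1 w`, `B2 w` and the root groups `Lg`, `Lg'`, `Sh`, `Sh'` and the unipotent
radicals of the point `y0` and the line `l0`, in `Sp_4(k)` and in every admissible source group `E`
(`PSp_4(k)`).
-/

set_option linter.all false

open scoped InnerProductSpace ENNReal LinearAlgebra.Projectivization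
open Set Filter Topology MeasureTheory ContinuousLinearMap

namespace Vale.Agent.P092.H71.P

open Vale.Agent.P092.H368.SN
open Vale.Agent.P092.SP4
open Vale.Agent.P092.SP (B1 B2 Lg Lg' Sh Sh' Adm)
open Vale.Agent.P092.RC (PG YY)
open Vale.Agent.P092.H35 (sp)

/-! ### The matrices -/

section mat

open Matrix

variable {k : Type} [NontriviallyNormedField k]

theorem b1_val (w : kˣ) : (b1 w : SpecialLinearGroup (Fin 4) k).1 = Matrix.diagonal (d1 w) := rfl

theorem b2_val (w : kˣ) : (b2 w : SpecialLinearGroup (Fin 4) k).1 = Matrix.diagonal (d2 w) := rfl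

theorem lg_val (s : k) : (lg s).1 = 1 + s • xlg := by
  ext i j
  fin_cases i <;> fin_cases j <;> simp [lg, xlg]

theorem lg'_val (s : k) : (lg' s).1 = 1 + s • xlg' := by
  ext i j
  fin_cases i <;> fin_cases j <;> simp [lg', xlg']

theorem sh_val (s : k) : (sh s).1 = 1 + s • xsh := by
  ext i j
  fin_cases i <;> fin_cases j <;> simp [sh, xsh]

theorem sh'_val (s : k) : (sh' s).1 = 1 + s • xsh' := by
  ext i j
  fin_cases i <;> fin_cases j <;> simp [sh', xsh']

theorem nlM_mem (s : Fin 3 → k) : nlM s ∈ S4 k := by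
  rw [mem_S4]
  change (1 + Lnl s) * J4 k * (1 + Lnl s)ᵀ = J4 k
  rw [Lnl_apply]
  ext i j
  fin_cases i <;> fin_cases j <;>
    simp [Matrix.mul_apply, Fin.sum_univ_four, J4, Matrix.add_apply, Matrix.one_apply]
  all_goals ring

theorem ncM_mem (p : (Fin 2 → k) × k) : ncM p ∈ S4 k := by
  rw [mem_S4]
  change (1 + Anc p.1 + p.2 • xlg) * J4 k * (1 + Anc p.1 + p.2 • xlg)ᵀ = J4 k
  rw [Anc_apply]
  ext i j
  fin_cases i <;> fin_cases j <;>
    simp [Matrix.mul_apply, Fin.sum_univ_four, J4, xlg, Matrix.add_apply, Matrix.one_apply]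
  all_goals ring

/-! ### The elements of `Sp_4(k)` -/

/-- the unipotent radical of the line `l0` -/
def Nl (s : Fin 3 → k) : S4 k := ⟨nlM s, nlM_mem s⟩
/-- the unipotent radical of the point `y0` -/
def Nc (p : (Fin 2 → k) × k) : S4 k := ⟨ncM p, ncM_mem p⟩

theorem Lg_cont : Continuous (Lg : k → S4 k) :=
  (one_par_cont lg_val).subtype_mk _
theorem Lg'_cont : Continuous (Lg' : k → S4 k) :=
  (one_par_cont lg'_val).subtype_mk _
theorem Sh_cont : Continuous (Sh : k → S4 k) :=
  (one_par_cont sh_val).subtype_mk _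
theorem Sh'_cont : Continuous (Sh' : k → S4 k) :=
  (one_par_cont sh'_val).subtype_mk _

end mat

/-! ### Proper homomorphisms -/

section proper

open Matrix

variable {k : Type} [NontriviallyNormedField k] {E : Type} [Group E] [TopologicalSpace E]

/-- the preimages of compact sets are relatively compact -/
def Prp (ι : S4 k →* E) : Prop :=
  ∀ C : Set E, IsCompact C → ∃ C' : Set (S4 k), IsCompact C' ∧ ι ⁻¹' C ⊆ C'

theorem prp_id : Prp (MonoidHom.id (S4 k)) := fun C hC => ⟨C, hC, fun x hx => hx⟩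

theorem s4_closed : IsClosed (S4 k : Set (Matrix.SpecialLinearGroup (Fin 4) k)) :=
  H303.isClosed_formGroup continuous_id _

/-- the action of `PGL` is faithful -/
theorem pg_faithful {x y : PG k 4} (h : ∀ z : YY k 3, x • z = y • z) : x = y := by
  have h1 : x⁻¹ * y = 1 := H789.eq_one_of_fix _ fun i => by
    rw [mul_smul, ← h, inv_smul_smul]
  exact (inv_mul_eq_one.1 h1)

theorem a_ι {ι : S4 k →* E} {a : E →* PG k 4} (h : Adm ι a) (g : S4 k) :
    a (ι g) = sp k 4 g.1 :=
  pg_faithful fun z => by rw [h.comp]; rfl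

/-- `ι` is proper for every admissible source group -/
theorem adm_proper [ProperSpace k] {ι : S4 k →* E} {a : E →* PG k 4} (h : Adm ι a) : Prp ι := by
  intro C hC
  obtain ⟨R, hR⟩ := (hC.image (H35.np_cont.comp h.ca)).bddAbove
  refine ⟨(fun g : S4 k => g.1) ⁻¹' {g | H35.nmx g.1 ≤ max 1 R},
    (s4_closed.isClosedEmbedding_subtypeVal).isCompact_preimage (H35.isCompact_bdd (max 1 R)),
    fun g hg => ?_⟩
  have h1 : H35.np (a (ι g)) ≤ R := hR ⟨_, hg, rfl⟩
  rw [a_ι h] at h1
  exact H35.nmx_le_of_np (by norm_num) h1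

end proper

/-! ### `Spr` -/

section spr

variable {k : Type} [NontriviallyNormedField k] [ProperSpace k] [MeasurableSpace k] [BorelSpace k]
  {μ : Measure k} [μ.IsAddHaarMeasure] {E : Type} [Group E] [TopologicalSpace E]
  {ι : S4 k →* E} (hι : Prp ι) (w : kˣ)

include hι

theorem spr1_sh : Spr μ (ι (B1 w)) (fun s => ι (Sh s)) (md w) :=
  spr_push hι (spr_sh (n := Sh) sh_val (b1_val w))

theorem spr1_sh' : Spr μ (ι (B1 w)) (fun s => ι (Sh' s)) (md w) :=
  spr_push hι (spr_sh' (n := Sh') sh'_val (b1_val w))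

theorem spr1_lg : Spr μ (ι (B1 w)) (fun s => ι (Lg s)) (md w ^ 2) :=
  spr_push hι (spr_lg (n := Lg) lg_val (b1_val w))

theorem spr2_lg₀ : Spr μ (ι (B2 w)) (fun s => ι (Lg s)) (md w ^ 2) :=
  spr_push hι (spr2_lg (n := Lg) lg_val (b2_val w))

theorem spr2_lg'₀ : Spr μ (ι (B2 w)) (fun s => ι (Lg' s)) (md w ^ 2) :=
  spr_push hι (spr2_lg' (n := Lg') lg'_val (b2_val w))

theorem spr2_sh'₀ : Spr μ (ι (B2 w)) (fun s => ι (Sh' s)) (md w ^ 2) :=
  spr_push hι (spr2_sh' (n := Sh') sh'_val (b2_val w))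

/-- the whole radical of the point -/
theorem spr1_Nc : Spr ((Measure.pi fun _ : Fin 2 => μ).prod μ) (ι (B1 w)) (fun s => ι (Nc s))
    (md w ^ 4) :=
  spr_push hι (spr_nc (n := Nc) (fun p => ncM_coe p) (b1_val w))

/-- the whole radical of the line -/
theorem spr2_Nl : Spr (Measure.pi fun _ : Fin 3 => μ) (ι (B2 w)) (fun s => ι (Nl s))
    (md w ^ 6) :=
  spr_push hι (spr_nl (n := Nl) (fun s => nlM_coe s) (b2_val w))

end spr

end Vale.Agent.P092.H71.P
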