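import Vale.Agent.P092.H725.SN.SizeN
import Vale.Agent.P092.H368.SN.OrbP
import Vale.Agent.P092.H71.P.OrbSp

/-!
P092 (helper71), TEAM P, blocks [P-ORB], [P-SIZE]: the fields `ms`, `uc`, `orb1`, `orb1'`, `orb2`,
`orb2'`, `size1`, `size2` of `SP.PB`, for both legs of the row model of every lattice of every
admissible source group `E` (`Sp_4(k)`, `PSp_4(k)`) and for target maps `q` which are homomorphisms
modulo scalars. The only input is the gap of the two wall elements.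
-/

set_option linter.all false

open scoped InnerProductSpace ENNReal LinearAlgebra.Projectivization
open Set Filter Topology MeasureTheory ContinuousLinearMap

namespace Vale.Agent.P092.H71.P

open Vale.Agent.P092.H160 Vale.Agent.P092.H933 Vale.Agent.P092.H368 Vale.Agent.P092.H103
open Vale.Agent.P092.SD (Ms UC)
open Vale.Agent.P092.H725 Vale.Agent.P092.H725.SN
open Vale.Agent.P092.SR Vale.Agent.P092.H839
open Vale.Agent.P092.RC (Cm KK pic XX Om GG PG lam₁ lam₂)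
open Vale.Agent.P092.SP (B1 B2 Lg Lg' Sh Sh' Adm ORB nm m2 PH)
open Vale.Agent.P092.H790.CTA (ORBG SIZEG)
open Vale.Agent.P092.SP4
open Vale.Agent.P092.H368.SN (Spr md md_pos md_nonneg md_lt_one orbE₁ orbE₂)

/-! ### Sizes dominated by a power -/

section pow

variable {E Γ K : Type} [Group E] [Group Γ] [NormedAddCommGroup K] [InnerProductSpace ℂ K]
  [CompleteSpace K] {lam : Γ →* (K →L[ℂ] K)} {W : Set (K →L[ℂ] K)} {Ω : K}
  {m : Set Γ → (K →L[ℂ] K)} {π : E →* (K →L[ℂ] K)} {a : E} {σ σ' : Γ → ℝ}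

theorem sz3_pow (hM : Ms lam W Ω m) (h : SZ3 a π Ω m σ) (h0 : ∀ γ, 0 ≤ σ γ) {C : ℝ} {d : ℕ}
    (hσ : ∀ γ, σ' γ ≤ C * σ γ ^ d) : SZ3 a π Ω m σ' := by
  intro g ε hε
  obtain ⟨c, hc⟩ := h g ε hε
  obtain ⟨L, hL⟩ := exists_nat_gt C
  have hL' : C ≤ Real.exp L := by
    have := Real.add_one_le_exp (L : ℝ)
    linarith
  refine ⟨d * c + L, fun N => le_trans (H458.Size.ms_mono hM (fun γ hγ => ?_) _) (hc N)⟩
  by_contra hcon
  have hcon' : σ γ ≤ Real.exp ((c * (N + 1) ^ 3 : ℕ) : ℝ) := not_lt.1 hcon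
  have hγ' : Real.exp (((d * c + L) * (N + 1) ^ 3 : ℕ) : ℝ) < σ' γ := hγ
  have h1 : σ γ ^ d ≤ Real.exp ((c * (N + 1) ^ 3 : ℕ) : ℝ) ^ d :=
    pow_le_pow_left₀ (h0 γ) hcon' d
  have h2 : C * σ γ ^ d ≤ Real.exp L * Real.exp ((c * (N + 1) ^ 3 : ℕ) : ℝ) ^ d :=
    (mul_le_mul_of_nonneg_right hL' (pow_nonneg (h0 γ) d)).trans
      (mul_le_mul_of_nonneg_left h1 (Real.exp_nonneg _))
  have h3 : Real.exp L * Real.exp ((c * (N + 1) ^ 3 : ℕ) : ℝ) ^ d ≤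
      Real.exp (((d * c + L) * (N + 1) ^ 3 : ℕ) : ℝ) := by
    rw [← Real.exp_nat_mul, ← Real.exp_add]
    refine Real.exp_le_exp.2 ?_
    have h4 : (L + d * (c * (N + 1) ^ 3) : ℕ) ≤ (d * c + L) * (N + 1) ^ 3 := by
      have h5 : 1 ≤ (N + 1) ^ 3 := Nat.one_le_pow _ _ (Nat.succ_pos N)
      nlinarith
    have h6 : ((L + d * (c * (N + 1) ^ 3) : ℕ) : ℝ) ≤ (((d * c + L) * (N + 1) ^ 3 : ℕ) : ℝ) := by
      exact_mod_cast h4
    refine le_trans (le_of_eq ?_) h6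
    push_cast
    ring
  exact absurd (hσ γ) (not_le.2 ((h2.trans h3).trans_lt hγ'))

end pow

/-! ### One leg -/

section leg

variable {k : Type} [NontriviallyNormedField k] [ProperSpace k] [MeasurableSpace k] [BorelSpace k]

/-- the fields `ms`, `uc`, `orb1`, `orb1'`, `orb2`, `orb2'`, `size1`, `size2` of `SP.PB`, and the
sizes for `m2` -/
structure PBo {E Γ K : Type} [Group E] [TopologicalSpace E] [Group Γ] [NormedAddCommGroup K]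
    [InnerProductSpace ℂ K] [CompleteSpace K] (μ : Measure k) (w : kˣ) (ι : S4 k →* E)
    (π : E →* (K →L[ℂ] K)) (lam : Γ →* (K →L[ℂ] K)) (W : Set (K →L[ℂ] K)) (Ω : K)
    (m : Set Γ → (K →L[ℂ] K)) (q : Γ → S4 k) : Prop where
  ms : Ms lam W Ω m
  uc : UC π W Ω m
  orb1 : ORB μ ι π lam W Ω (B1 w) Sh'
  orb1' : ORB μ ι π lam W Ω (B1 w) Lg
  orb2 : ORB μ ι π lam W Ω (B2 w) Lg
  orb2' : ORB μ ι π lam W Ω (B2 w) Sh'
  size1 : SIZEG (ι (B1 w)) π Ω m fun γ => nm (q γ)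
  size2 : SIZEG (ι (B2 w)) π Ω m fun γ => nm (q γ)
  msize1 : SIZEG (ι (B1 w)) π Ω m fun γ => m2 (q γ)
  msize2 : SIZEG (ι (B2 w)) π Ω m fun γ => m2 (q γ)

variable {μ : Measure k} [μ.IsAddHaarMeasure]
  {E : Type} [Group E] [TopologicalSpace E] [IsTopologicalGroup E] [LocallyCompactSpace E]
  [SecondCountableTopology E] [T2Space E] [MeasurableSpace E] [BorelSpace E]
  {ι : S4 k →* E} {a : E →* PG k 4}
  {Γ : Subgroup E} [DiscreteTopology Γ] [Countable Γ] [MeasurableSpace (E ⧸ Γ)]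
  [BorelSpace (E ⧸ Γ)] {ν : Measure (E ⧸ Γ)} [IsProbabilityMeasure ν]
  (hν : ∀ g : E, ν.map (fun x => g • x) = ν)
  {Λ : Type} [Group Λ] {α : Γ →* (Ell2 Λ →L[ℂ] Ell2 Λ)} (hα : Frame α)
  (hΛ : ∀ s : Λ, s ≠ 1 → Set.Infinite {y : Λ | ∃ h, y = h * s * h⁻¹})
  {q : Γ → S4 k} (hq : PH q)

include hΛ hq in
/-- polynomial sizes for every element with the gap, first leg -/
theorem size₁ {b : E} (hb : LeviGap b) :
    SZ3 b (pic hν hα) (Om ν Λ) (mS₁ ν hα) fun γ => nm (q γ) :=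
  (sz3_N₁ hν hα hΛ (bF₁ hα) (bF₁_ap hα) (ms₁ hα) (q := fun γ => (q γ).1) hq hb).mono (ms₁ hα)
    fun γ => le_max_left _ _

include hΛ hq in
/-- polynomial sizes for every element with the gap, second leg -/
theorem size₂ {b : E} (hb : LeviGap b) :
    SZ3 b (pic hν hα) (Om ν Λ) (mS₂ ν hα) fun γ => nm (q γ) :=
  (sz3_N₂ hν hα hΛ (bF₂ hα) (bF₂_ap hα) (ms₂ hα) (q := fun γ => (q γ).1) hq hb).mono (ms₂ hα)
    fun γ => le_max_left _ _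

omit [ProperSpace k] [MeasurableSpace k] [BorelSpace k] in
theorem nm_nonneg (g : S4 k) : 0 ≤ nm g := nmm_nonneg _

omit [ProperSpace k] [MeasurableSpace k] [BorelSpace k] in
theorem m2_le_nm (g : S4 k) : m2 g ≤ 2 * nm g ^ 2 := H337.NG.m2_le g.1.1

omit [MeasurableSpace k] [BorelSpace k] in
theorem r1 (w : kˣ) (hw : ‖(w : k)‖ < 1) : 0 < md w ∧ md w < 1 := ⟨md_pos w, md_lt_one hw⟩

omit [MeasurableSpace k] [BorelSpace k] in
theorem r2 (w : kˣ) (hw : ‖(w : k)‖ < 1) : 0 < md w ^ 2 ∧ md w ^ 2 < 1 :=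
  ⟨pow_pos (md_pos w) 2, pow_lt_one₀ (md_nonneg w) (md_lt_one hw) two_ne_zero⟩

include hΛ hq

/-- **first leg** -/
theorem pbo₁ (h : Adm ι a) {w : kˣ} (hw : ‖(w : k)‖ < 1) (h1 : LeviGap (ι (B1 w)))
    (h2 : LeviGap (ι (B2 w))) :
    PBo μ w ι (pic hν hα) (lam₁ ν α) (XX ν Λ ∪ Set.range (lam₂ ν α)) (Om ν Λ) (mS₁ ν hα) q where
  ms := ms₁ hα
  uc := uc₁ hν hα
  orb1 := ⟨_, (r1 w hw).1, (r1 w hw).2, orbE₁ hν hα (h.cι.comp Sh'_cont)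
    (spr1_sh' (adm_proper h) w)⟩
  orb1' := ⟨_, (r2 w hw).1, (r2 w hw).2, orbE₁ hν hα (h.cι.comp Lg_cont)
    (spr1_lg (adm_proper h) w)⟩
  orb2 := ⟨_, (r2 w hw).1, (r2 w hw).2, orbE₁ hν hα (h.cι.comp Lg_cont)
    (spr2_lg₀ (adm_proper h) w)⟩
  orb2' := ⟨_, (r2 w hw).1, (r2 w hw).2, orbE₁ hν hα (h.cι.comp Sh'_cont)
    (spr2_sh'₀ (adm_proper h) w)⟩
  size1 := (size₁ hν hα hΛ hq h1).exp_exp (ms₁ hα)
  size2 := (size₁ hν hα hΛ hq h2).exp_exp (ms₁ hα)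
  msize1 := (sz3_pow (ms₁ hα) (size₁ hν hα hΛ hq h1) (fun γ => nm_nonneg _)
    fun γ => m2_le_nm (q γ)).exp_exp (ms₁ hα)
  msize2 := (sz3_pow (ms₁ hα) (size₁ hν hα hΛ hq h2) (fun γ => nm_nonneg _)
    fun γ => m2_le_nm (q γ)).exp_exp (ms₁ hα)

/-- **second leg** -/
theorem pbo₂ (h : Adm ι a) {w : kˣ} (hw : ‖(w : k)‖ < 1) (h1 : LeviGap (ι (B1 w)))
    (h2 : LeviGap (ι (B2 w))) :
    PBo μ w ι (pic hν hα) (lam₂ ν α) (XX ν Λ ∪ Set.range (lam₁ ν α)) (Om ν Λ) (mS₂ ν hα) q where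
  ms := ms₂ hα
  uc := uc₂ hν hα
  orb1 := ⟨_, (r1 w hw).1, (r1 w hw).2, orbE₂ hν hα (h.cι.comp Sh'_cont)
    (spr1_sh' (adm_proper h) w)⟩
  orb1' := ⟨_, (r2 w hw).1, (r2 w hw).2, orbE₂ hν hα (h.cι.comp Lg_cont)
    (spr1_lg (adm_proper h) w)⟩
  orb2 := ⟨_, (r2 w hw).1, (r2 w hw).2, orbE₂ hν hα (h.cι.comp Lg_cont)
    (spr2_lg₀ (adm_proper h) w)⟩
  orb2' := ⟨_, (r2 w hw).1, (r2 w hw).2, orbE₂ hν hα (h.cι.comp Sh'_cont)
    (spr2_sh'₀ (adm_proper h) w)⟩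
  size1 := (size₂ hν hα hΛ hq h1).exp_exp (ms₂ hα)
  size2 := (size₂ hν hα hΛ hq h2).exp_exp (ms₂ hα)
  msize1 := (sz3_pow (ms₂ hα) (size₂ hν hα hΛ hq h1) (fun γ => nm_nonneg _)
    fun γ => m2_le_nm (q γ)).exp_exp (ms₂ hα)
  msize2 := (sz3_pow (ms₂ hα) (size₂ hν hα hΛ hq h2) (fun γ => nm_nonneg _)
    fun γ => m2_le_nm (q γ)).exp_exp (ms₂ hα)

end leg

end Vale.Agent.P092.H71.P
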