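import Vale.Agent.P092.H725.SN.SizeN
import Vale.Agent.P092.H71.P.SizeSp

/-!
P092 (helper71), TEAM P, stages 2 and 3, block [SIZE]: polynomial sizes for both legs of the row
model of any lattice of any source group `E`, for any element with the gap and ANY submultiplicative
size function on the lattice; in particular `γ ↦ max ‖q γ‖` for `q : Γ → SL_m(k)` a homomorphism
modulo scalars, `m` any finite index type, and every quantity dominated by a power of it.
-/

set_option linter.all false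

open scoped InnerProductSpace ENNReal LinearAlgebra.Projectivization
open Set Filter Topology MeasureTheory ContinuousLinearMap Matrix

namespace Vale.Agent.P092.H71.P

open Vale.Agent.P092.H160 Vale.Agent.P092.H933 Vale.Agent.P092.H368 Vale.Agent.P092.H103
open Vale.Agent.P092.SD (Ms UC)
open Vale.Agent.P092.H725 Vale.Agent.P092.H725.SN
open Vale.Agent.P092.SR Vale.Agent.P092.H839
open Vale.Agent.P092.RC (Cm KK pic XX Om GG PG lam₁ lam₂)
open Vale.Agent.P092.H790.CTA (ORBG SIZEG)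

/-! ### Norms of homomorphisms modulo scalars, any index type -/

section nm

variable {k : Type} [NontriviallyNormedField k] {m : Type} [Fintype m] [DecidableEq m]

theorem nmm_smul [Nonempty m] {g h : SpecialLinearGroup m k} {c : k} (e : g.1 = c • h.1) :
    nmm g = nmm h := by
  have hc : ‖c‖ = 1 := by
    have h1 := congrArg Matrix.det e
    rw [Matrix.det_smul, g.2, h.2, mul_one] at h1
    have h2 : ‖c‖ ^ Fintype.card m = 1 := by rw [← norm_pow, ← h1, norm_one]
    exact (pow_eq_one_iff_of_nonneg (norm_nonneg c) Fintype.card_ne_zero).1 h2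
  have key : (fun i j => g.1 i j : m → m → k) = c • (fun i j => h.1 i j : m → m → k) := by
    funext i j
    have := congrFun (congrFun e i) j
    simpa using this
  unfold nmm
  rw [key, norm_smul, hc, one_mul]

/-- the size of a homomorphism modulo scalars is submultiplicative -/
theorem nms_mod [Nonempty m] {Γ : Type} [Group Γ] {q : Γ → SpecialLinearGroup m k}
    (hq : ∀ γ γ', ∃ c : k, (q (γ * γ')).1 = c • (q γ * q γ').1) :
    NmS (fun γ => nmm (q γ)) (Fintype.card m : ℝ) where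
  nonneg γ := nmm_nonneg _
  mul γ γ' := by
    obtain ⟨c, hc⟩ := hq γ γ'
    rw [nmm_smul hc]
    exact nmm_mul (q γ) (q γ')
  one_le := by exact_mod_cast Fintype.card_pos

end nm

/-! ### Sizes -/

section leg

variable {E : Type} [Group E] [TopologicalSpace E] [IsTopologicalGroup E] [LocallyCompactSpace E]
  [SecondCountableTopology E] [T2Space E] [MeasurableSpace E] [BorelSpace E]
  {Γ : Subgroup E} [DiscreteTopology Γ] [Countable Γ] [MeasurableSpace (E ⧸ Γ)]
  [BorelSpace (E ⧸ Γ)] {ν : Measure (E ⧸ Γ)} [IsProbabilityMeasure ν]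
  (hν : ∀ g : E, ν.map (fun x => g • x) = ν)
  {Λ : Type} [Group Λ] {α : Γ →* (Ell2 Λ →L[ℂ] Ell2 Λ)} (hα : Frame α)
  (hΛ : ∀ s : Λ, s ≠ 1 → Set.Infinite {y : Λ | ∃ h, y = h * s * h⁻¹})
  {s : Γ → ℝ} {C : ℝ} (hs : NmS s C) {b : E} (hb : LeviGap b)

include hΛ hs hb

/-- polynomial sizes of any submultiplicative size function, first leg -/
theorem sz3G₁ : SZ3 b (pic hν hα) (Om ν Λ) (mS₁ ν hα) s :=
  sz3₁' hν hα hΛ (bF₁ hα) (bF₁_ap hα) (ms₁ hα) (flt_DS hs (MonoidHom.id Γ))
    (fun J γ h => DS_le hs (q := MonoidHom.id Γ) h) hb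

/-- polynomial sizes of any submultiplicative size function, second leg -/
theorem sz3G₂ : SZ3 b (pic hν hα) (Om ν Λ) (mS₂ ν hα) s :=
  sz3₂' hν hα hΛ (bF₂ hα) (bF₂_ap hα) (ms₂ hα) (flt_DS hs (MonoidHom.id Γ))
    (fun J γ h => DS_le hs (q := MonoidHom.id Γ) h) hb

/-- the field `size`, first leg -/
theorem sizeG₁ : SIZEG b (pic hν hα) (Om ν Λ) (mS₁ ν hα) s :=
  (sz3G₁ hν hα hΛ hs hb).exp_exp (ms₁ hα)

/-- the field `size`, second leg -/
theorem sizeG₂ : SIZEG b (pic hν hα) (Om ν Λ) (mS₂ ν hα) s :=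
  (sz3G₂ hν hα hΛ hs hb).exp_exp (ms₂ hα)

/-- quantities dominated by a power of the size, first leg -/
theorem sizeGp₁ {s' : Γ → ℝ} {B : ℝ} {d : ℕ} (h : ∀ γ, s' γ ≤ B * s γ ^ d) :
    SIZEG b (pic hν hα) (Om ν Λ) (mS₁ ν hα) s' :=
  (sz3_pow (ms₁ hα) (sz3G₁ hν hα hΛ hs hb) hs.nonneg h).exp_exp (ms₁ hα)

/-- quantities dominated by a power of the size, second leg -/
theorem sizeGp₂ {s' : Γ → ℝ} {B : ℝ} {d : ℕ} (h : ∀ γ, s' γ ≤ B * s γ ^ d) :
    SIZEG b (pic hν hα) (Om ν Λ) (mS₂ ν hα) s' :=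
  (sz3_pow (ms₂ hα) (sz3G₂ hν hα hΛ hs hb) hs.nonneg h).exp_exp (ms₂ hα)

end leg

end Vale.Agent.P092.H71.P
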