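import Vale.Agent.P092.CL.Defs
import Vale.Agent.P092.H71.P.PropG
import Vale.Agent.P092.H71.P.SizeG

/-!
P092 (helper71), TEAM P, stages 2 and 3, [CL-ORB] and [CL-SIZE] in the letters of `CL/Defs`: the
fields `ms`, `uc`, `orb1`, `orb2`, `orb2'`, `size1`, `size2` of `CL.PB`, for both legs of the row
model of every lattice of every admissible source group `E`, for every `L` with `Geo L`, from the
spreading of the root groups `u1`, `u2` and the gap of the two walls.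
-/

set_option linter.all false

open scoped InnerProductSpace ENNReal
open Set Filter Topology MeasureTheory ContinuousLinearMap

namespace Vale.Agent.P092.H71.CLO

open Vale.Agent.P092.H160 Vale.Agent.P092.H933 Vale.Agent.P092.H368 Vale.Agent.P092.H103
open Vale.Agent.P092.SD (Ms UC)
open Vale.Agent.P092.H725 Vale.Agent.P092.H725.SN
open Vale.Agent.P092.SR Vale.Agent.P092.H839
open Vale.Agent.P092.RC (Cm KK pic XX Om lam₁ lam₂)
open Vale.Agent.P092.H790.CTA (ORBG SIZEG)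
open Vale.Agent.P092.H368.SN (Spr orbE₁ orbE₂)
open Vale.Agent.P092.H71.P
open Vale.Agent.P092.CL (Lt Geo Adm ORB)

section abs

variable {S P M V₁ V₂ : Type} [Group S] [TopologicalSpace S] [MulAction S P] [TopologicalSpace P]
  [CompactSpace P] [ContinuousConstSMul S P] [MulAction S M] [TopologicalSpace M] [CompactSpace M]
  [ContinuousConstSMul S M] [NormedAddCommGroup V₁] [NormedAddCommGroup V₂] [MeasurableSpace V₁]
  [MeasurableSpace V₂] {L : Lt S P M V₁ V₂}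

/-- the source homomorphism is proper -/
theorem prp_adm (hG : Geo L) {E : Type} [Group E] [TopologicalSpace E] {ι : S →* E}
    (hA : Adm L ι) : PrpG ι := by
  intro C hC
  by_cases h : ∃ R : ℝ, ∀ g, ι g ∈ C → L.nm g ≤ R
  · obtain ⟨R, hR⟩ := h
    exact ⟨{g | L.nm g ≤ R}, hG.nm_cpt R, fun g hg => hR g hg⟩
  · exfalso
    push Not at h
    choose b hb hbn using fun n : ℕ => h n
    have h1 : Tendsto (fun n => L.nm (b n)) atTop atTop :=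
      tendsto_atTop_mono (fun n => (hbn n).le) tendsto_natCast_atTop_atTop
    have h2 := (hA.coc b h1).eventually hC.compl_mem_cocompact
    obtain ⟨n, hn⟩ := h2.exists
    exact hn (hb n)

/-- the size of the lattice is submultiplicative -/
theorem nms_cl (hG : Geo L) {Γ : Type} [Group Γ] {q : Γ → S} (hq : L.PH q) :
    ∃ C : ℝ, NmS (fun γ => L.nm (q γ)) C := by
  obtain ⟨C, hC0, hC⟩ := hG.nm_mul
  refine ⟨max C 1, fun γ => (hG.nm_pos _).le, fun γ γ' => ?_, le_max_right _ _⟩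
  obtain ⟨z, hz, e⟩ := hq γ γ'
  change L.nm (q (γ * γ')) ≤ _
  rw [e, hG.z_nm z hz]
  have h1 := (hG.nm_pos (q γ)).le
  have h2 := (hG.nm_pos (q γ')).le
  calc L.nm (q γ * q γ') ≤ C * (L.nm (q γ) * L.nm (q γ')) := hC _ _
    _ ≤ max C 1 * (L.nm (q γ) * L.nm (q γ')) :=
        mul_le_mul_of_nonneg_right (le_max_left _ _) (mul_nonneg h1 h2)
    _ = _ := (mul_assoc _ _ _).symm

/-- the root groups `u1`, `u2` are spread out by the walls -/
structure SprL (L : Lt S P M V₁ V₂) : Prop where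
  s1 : ∃ ρ : ℝ, 0 < ρ ∧ ρ < 1 ∧ Spr L.μ₁ L.b1 L.u1 ρ
  s2 : ∃ ρ : ℝ, 0 < ρ ∧ ρ < 1 ∧ Spr L.μ₂ L.b2 L.u2 ρ
  s2' : ∃ ρ : ℝ, 0 < ρ ∧ ρ < 1 ∧ Spr L.μ₁ L.b2 L.u1 ρ

/-- the fields `ms`, `uc`, `orb1`, `orb2`, `orb2'`, `size1`, `size2` of `CL.PB` -/
structure PBo {E Γ K : Type} [Group E] [TopologicalSpace E] [Group Γ] [NormedAddCommGroup K]
    [InnerProductSpace ℂ K] [CompleteSpace K] (L : Lt S P M V₁ V₂) (ι : S →* E)
    (π : E →* (K →L[ℂ] K)) (lam : Γ →* (K →L[ℂ] K)) (W : Set (K →L[ℂ] K)) (Ω : K)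
    (m : Set Γ → (K →L[ℂ] K)) (q : Γ → S) : Prop where
  ms : Ms lam W Ω m
  uc : UC π W Ω m
  orb1 : ORB L.μ₁ ι π lam W Ω L.b1 L.u1
  orb2 : ORB L.μ₂ ι π lam W Ω L.b2 L.u2
  orb2' : ORB L.μ₁ ι π lam W Ω L.b2 L.u1
  size1 : SIZEG (ι L.b1) π Ω m fun γ => L.nm (q γ)
  size2 : SIZEG (ι L.b2) π Ω m fun γ => L.nm (q γ)

variable [ProperSpace V₁] [ProperSpace V₂] [BorelSpace V₁] [BorelSpace V₂]
  {E : Type} [Group E] [TopologicalSpace E] [IsTopologicalGroup E] [LocallyCompactSpace E]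
  [SecondCountableTopology E] [T2Space E] [MeasurableSpace E] [BorelSpace E] {ι : S →* E}
  {Γ : Subgroup E} [DiscreteTopology Γ] [Countable Γ] [MeasurableSpace (E ⧸ Γ)]
  [BorelSpace (E ⧸ Γ)] {ν : Measure (E ⧸ Γ)} [IsProbabilityMeasure ν]
  (hν : ∀ g : E, ν.map (fun x => g • x) = ν)
  {Λ : Type} [Group Λ] {α : Γ →* (Ell2 Λ →L[ℂ] Ell2 Λ)} (hα : Frame α)
  (hΛ : ∀ s : Λ, s ≠ 1 → Set.Infinite {y : Λ | ∃ h, y = h * s * h⁻¹})
  (hG : Geo L) (hA : Adm L ι) (h1 : IsFiniteMeasureOnCompacts L.μ₁)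
  (h2 : IsFiniteMeasureOnCompacts L.μ₂) (hs : SprL L) {q : Γ → S} (hq : L.PH q)
  (g1 : LeviGap (ι L.b1)) (g2 : LeviGap (ι L.b2))

include hΛ hG hA h1 h2 hs hq g1 g2

/-- **[CL-ORB], [CL-SIZE], first leg** -/
theorem pbo₁ : PBo L ι (pic hν hα) (lam₁ ν α) (XX ν Λ ∪ Set.range (lam₂ ν α)) (Om ν Λ)
    (mS₁ ν hα) q := by
  obtain ⟨C, hC⟩ := nms_cl hG hq
  obtain ⟨r1, p1, q1, s1⟩ := hs.s1
  obtain ⟨r2, p2, q2, s2⟩ := hs.s2
  obtain ⟨r3, p3, q3, s3⟩ := hs.s2'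
  have hp := prp_adm hG hA
  exact
    { ms := ms₁ hα
      uc := uc₁ hν hα
      orb1 := ⟨r1, p1, q1, orbE₁ hν hα (hA.cι.comp hG.u1c) (spr_push hp s1)⟩
      orb2 := ⟨r2, p2, q2, orbE₁ hν hα (hA.cι.comp hG.u2c) (spr_push hp s2)⟩
      orb2' := ⟨r3, p3, q3, orbE₁ hν hα (hA.cι.comp hG.u1c) (spr_push hp s3)⟩
      size1 := sizeG₁ hν hα hΛ hC g1
      size2 := sizeG₁ hν hα hΛ hC g2 }

/-- **[CL-ORB], [CL-SIZE], second leg** -/
theorem pbo₂ : PBo L ι (pic hν hα) (lam₂ ν α) (XX ν Λ ∪ Set.range (lam₁ ν α)) (Om ν Λ)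
    (mS₂ ν hα) q := by
  obtain ⟨C, hC⟩ := nms_cl hG hq
  obtain ⟨r1, p1, q1, s1⟩ := hs.s1
  obtain ⟨r2, p2, q2, s2⟩ := hs.s2
  obtain ⟨r3, p3, q3, s3⟩ := hs.s2'
  have hp := prp_adm hG hA
  exact
    { ms := ms₂ hα
      uc := uc₂ hν hα
      orb1 := ⟨r1, p1, q1, orbE₂ hν hα (hA.cι.comp hG.u1c) (spr_push hp s1)⟩
      orb2 := ⟨r2, p2, q2, orbE₂ hν hα (hA.cι.comp hG.u2c) (spr_push hp s2)⟩
      orb2' := ⟨r3, p3, q3, orbE₂ hν hα (hA.cι.comp hG.u1c) (spr_push hp s3)⟩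
      size1 := sizeG₂ hν hα hΛ hC g1
      size2 := sizeG₂ hν hα hΛ hC g2 }

end abs

/-! ### The root groups of `FormGroup` -/

section inst

open Vale.Agent.P092.H303

variable {k : Type} [NontriviallyNormedField k] [ProperSpace k] [MeasurableSpace k] [BorelSpace k]
  {r : ℕ} {ι : Type} [Fintype ι] [DecidableEq ι] {σ : k →+* k} {ε : k} {J₀ : Matrix ι ι k}
  (hσ : ∀ x, σ (σ x) = x) (he : ε * ε = 1) (hse : σ ε = ε) (hσc : Continuous σ)
  {w : k} (hw : w ≠ 0) (hσw : σ w = w) (hw1 : ‖w‖ < 1) {l : Fin r → ℤ}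

include hσc hw1 in
/-- the root `e_i + e_j` is spread out -/
theorem sp_sh {i j : Fin r} (hij : i ≠ j) (hl : 0 < l i + l j) {μ : Measure k}
    [μ.IsAddHaarMeasure] : ∃ ρ : ℝ, 0 < ρ ∧ ρ < 1 ∧
      Spr μ (toF (ε := ε) (J₀ := J₀) hw hσw l) (shF (J₀ := J₀) hσ he hse i j) ρ := by
  refine ⟨_, rt_pos _, rt_lt (sh_exp hw hw1 hl) (dilV_exp _) ⟨1, one_ne_zero⟩,
    short_spr (j := jF _) jF_inj jF_ind (τ := tau σ ε)
    (Y₁ := Matrix.single (mI i) (pI j) 1) (Y₂ := Matrix.single (mI j) (pI i) 1)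
    (shF_val hσ he hse i j)
    (single_mul0 (pm j i)) (single_mul0 (pm j j)) (single_mul0 (pm i i)) (single_mul0 (pm i j))
    ⟨mI i, pI j, ?_, ?_⟩ (c := wz hw (l i + l j))
    (c' := ((wz hw (l i + l j) : kˣ) : k)) ?_ ?_ (tau_wz hw hσw _)⟩
  · rw [Matrix.single_apply_same]; exact one_ne_zero
  · rw [Matrix.single_apply, if_neg]
    intro h
    exact (mm hij) h.1.symm
  · exact sh_wt1 hw i j
  · rw [add_comm (l i)]
    exact sh_wt1 hw j i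

include hw1 in
omit [ProperSpace k] in
/-- the root `2 e_i` is spread out -/
theorem sp_lg {i : Fin r} (hl : 0 < l i) [ProperSpace (skw σ ε)] {μ : Measure (skw σ ε)}
    [μ.IsAddHaarMeasure] [μ.Regular] (hS : ∃ s : skw σ ε, s ≠ 0) :
    ∃ ρ : ℝ, 0 < ρ ∧ ρ < 1 ∧ Spr μ (toF (ε := ε) (J₀ := J₀) hw hσw l) (lgF (J₀ := J₀) i) ρ := by
  refine ⟨_, rt_pos _, rt_lt (wz_lt hw hw1 (m := l i + l i) (by omega)) (dilS_exp _ _) hS,
    long_spr (j := jF _) jF_inj jF_ind (Y := Matrix.single (mI i) (pI i) 1)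
    (lgF_val i) (single_mul0 (pm i i)) ?_ (c := wz hw (l i + l i))
    (fun x hx => skw_mul (by rw [wz_val, map_zp hσw]) hx)
    (fun x hx => skw_mul (by rw [wz_inv, map_zp hσw]) hx) (sh_wt1 hw i i)⟩
  intro h
  have h1 := congrFun (congrFun h (mI i)) (pI i)
  rw [Matrix.single_apply_same] at h1
  exact one_ne_zero h1

include hσc hw1 in
/-- **the record `SprL` for the letters of `FormGroup σ (hyp r ε J₀)`**, `r ≥ 2`: walls
`b1 = toF (1, 0, ..)`, `b2 = toF (1, .., 1)`, root groups `u1 = shF i₀ i₁` (root `e_1 + e_2`),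
`u2 = lgF i₁` (root `2 e_2`). -/
theorem sprL_of {P M : Type} {L : Lt (FormGroup σ (hyp r ε J₀)) P M k (skw σ ε)}
    {i₀ i₁ : Fin r} (hi : i₀ ≠ i₁) (hb1 : L.b1 = toF hw hσw (Pi.single i₀ 1))
    (hb2 : L.b2 = toF hw hσw (fun _ => 1)) (hu1 : L.u1 = shF hσ he hse i₀ i₁)
    (hu2 : L.u2 = lgF i₁) (h1 : L.μ₁.IsAddHaarMeasure) (h2 : L.μ₂.IsAddHaarMeasure)
    (hr : L.μ₂.Regular) (hS : ∃ s : skw σ ε, s ≠ 0) : SprL L := by
  haveI := skw_proper (ε := ε) hσc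
  refine ⟨?_, ?_, ?_⟩
  · rw [hb1, hu1]
    refine sp_sh hσ he hse hσc hw hσw hw1 hi ?_
    rw [Pi.single_eq_same, Pi.single_eq_of_ne hi.symm]
    norm_num
  · rw [hb2, hu2]
    exact sp_lg hw hσw hw1 (by norm_num) hS
  · rw [hb2, hu1]
    exact sp_sh hσ he hse hσc hw hσw hw1 hi (by norm_num)

end inst

end Vale.Agent.P092.H71.CLO
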