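import Vale.Agent.P092.CL.Lt
import Vale.Agent.P092.H71.P.CLPB
import Vale.Agent.P092.H714.SgM

/-!
P092 (helper71), TEAM P, stages 2 and 3, [CL-GEO] for the letters of `CL/Lt`: the size `nm`, the
root groups `u1`, `u2`, the walls `b1`, `b2`: the fields `u1c`, `u10`, `u2c`, `u20`, `con1`, `con2`,
`nm_pos`, `nm_mul`, `nm_inv`, `nm_c`, `nm_cpt`, `nm_b1`, `nm_b2`, `unb1`, `unb2`, `unbu` of `CL.Geo`,
and `SprL` (growth), for `σ` isometric and `‖w‖ < 1`.
-/

set_option linter.all false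

open scoped Matrix NNReal
open Set Filter Topology MeasureTheory Matrix Module

namespace Vale.Agent.P092.H71.CLG

open Vale.Agent.P092.H303 (FormGroup Idx hyp torF torF_mem root2 dgF hypAt_l hypAt_r)
open Vale.Agent.P092.H714.Cl
open Vale.Agent.P092.H714.Sg (Fm HasTor hasTor flags_unb)
open Vale.Agent.P092.H370.Po (SGr Inc Sing act act_inv_act smul_S)
open Vale.Agent.P092.H368.SN (Spr)
open Vale.Agent.P092.H71.P
open Vale.Agent.P092.H71.CLO
open Vale.Agent.P092.CL (ta nmM scal V2 ep em p0 m0 b1 b2 u1 u2 lt hf_ep)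

/-! ### The size -/

section nm

variable {k : Type} [NontriviallyNormedField k] {n : Type} [Fintype n] [DecidableEq n]

omit [DecidableEq n] in
theorem nmM_nonneg (A : Matrix n n k) : 0 ≤ nmM A := norm_nonneg _

omit [DecidableEq n] in
theorem entry_le (A : Matrix n n k) (i j : n) : ‖A i j‖ ≤ nmM A :=
  (norm_le_pi_norm (fun j => A i j) j).trans (norm_le_pi_norm (fun i j => A i j : n → n → k) i)

omit [DecidableEq n] in
theorem nmM_le {A : Matrix n n k} {c : ℝ} (hc : 0 ≤ c) (h : ∀ i j, ‖A i j‖ ≤ c) : nmM A ≤ c :=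
  (pi_norm_le_iff_of_nonneg hc).2 fun i => (pi_norm_le_iff_of_nonneg hc).2 fun j => h i j

omit [DecidableEq n] in
theorem nmM_mul (A B : Matrix n n k) : nmM (A * B) ≤ Fintype.card n * (nmM A * nmM B) := by
  have hA := nmM_nonneg A
  have hB := nmM_nonneg B
  refine nmM_le (by positivity) fun i j => ?_
  rw [Matrix.mul_apply]
  calc ‖∑ l, A i l * B l j‖ ≤ ∑ l : n, ‖A i l * B l j‖ := norm_sum_le _ _
    _ ≤ ∑ _l : n, nmM A * nmM B := Finset.sum_le_sum fun l _ => by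
        rw [norm_mul]
        exact mul_le_mul (entry_le A i l) (entry_le B l j) (norm_nonneg _) hA
    _ = _ := by rw [Finset.sum_const, Finset.card_univ, nsmul_eq_mul]

omit [DecidableEq n] in
theorem nmM_T (A : Matrix n n k) : nmM Aᵀ = nmM A :=
  le_antisymm (nmM_le (nmM_nonneg A) fun i j => entry_le A j i)
    (nmM_le (nmM_nonneg _) fun i j => entry_le Aᵀ j i)

omit [DecidableEq n] in
theorem nmM_map {σ : k →+* k} (hσ : ∀ x, ‖σ x‖ = ‖x‖) (A : Matrix n n k) :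
    nmM (A.map σ) = nmM A := by
  refine le_antisymm (nmM_le (nmM_nonneg A) fun i j => ?_) (nmM_le (nmM_nonneg _) fun i j => ?_)
  · rw [Matrix.map_apply, hσ]
    exact entry_le A i j
  · rw [← hσ, ← Matrix.map_apply (f := σ)]
    exact entry_le _ i j

omit [DecidableEq n] in
theorem nmM_cont : Continuous (nmM : Matrix n n k → ℝ) := by
  have h : Continuous fun A : n → n → k => ‖A‖ := continuous_norm
  exact h

theorem nmM_ne {A : Matrix n n k} (h : A ≠ 0) : 0 < nmM A := by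
  refine lt_of_le_of_ne (nmM_nonneg A) fun h0 => h ?_
  ext i j
  have h1 := entry_le A i j
  rw [← h0] at h1
  exact norm_le_zero_iff.1 h1

theorem ta_one : ta (1 : SpecialLinearGroup n k) = 1 := by
  unfold ta
  rw [inv_one]
  exact Matrix.transpose_one

theorem ta_mul (g h : SpecialLinearGroup n k) : ta (g * h) = ta g * ta h := by
  unfold ta
  rw [_root_.mul_inv_rev]
  change (h⁻¹.1 * g⁻¹.1)ᵀ = _
  rw [Matrix.transpose_mul]

theorem ta_inv (g : SpecialLinearGroup n k) : ta g⁻¹ = g.1ᵀ := by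
  unfold ta
  rw [inv_inv]

theorem ta_cont : Continuous (ta : SpecialLinearGroup n k → Matrix n n k) := by
  have h1 : Continuous fun g : SpecialLinearGroup n k => g⁻¹ := continuous_inv
  have h2 : Continuous fun g : SpecialLinearGroup n k => g.1 := continuous_subtype_val
  exact (h2.comp h1).matrix_transpose

theorem ta_ne [Nonempty n] (g : SpecialLinearGroup n k) : ta g ≠ 0 := by
  intro h
  have h1 : ta g * ta g⁻¹ = 1 := by rw [← ta_mul, mul_inv_cancel, ta_one]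
  rw [h, Matrix.zero_mul] at h1
  obtain ⟨i⟩ := ‹Nonempty n›
  have h2 := congrFun (congrFun h1 i) i
  simp at h2

end nm

/-! ### The size on the group of a form -/

section form

variable {k : Type} [NontriviallyNormedField k] {n : Type} [Fintype n] [DecidableEq n] [Nonempty n]
  {σ : k →+* k} {ε : k} {J : Matrix n n k} (hF : Frm σ ε J) (hσ : ∀ x, ‖σ x‖ = ‖x‖)

omit [Nonempty n] in
include hF in
theorem det_ne : J.det ≠ 0 := by
  intro h
  obtain ⟨v, hv, h1⟩ := Matrix.exists_vecMul_eq_zero_iff.2 h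
  obtain ⟨y, hy⟩ := hF.nondeg v hv
  apply hy
  unfold hf
  rw [dotProduct_mulVec, h1, zero_dotProduct]

include hF hσ in
theorem inv_le : ∃ C : ℝ, 0 < C ∧ ∀ g : FormGroup σ J, nmM (ta g⁻¹.1) ≤ C * nmM (ta g.1) := by
  have hd := det_ne hF
  have hu : IsUnit J.det := isUnit_iff_ne_zero.2 hd
  refine ⟨Fintype.card n * (nmM J⁻¹ * Fintype.card n * nmM J) + 1, by
    have h1 := nmM_nonneg J
    have h2 := nmM_nonneg J⁻¹
    positivity, fun g => ?_⟩
  have hg : g.1.1 * J * (g.1.1.map σ)ᵀ = J := g.2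
  have h1 : g.1⁻¹.1 * g.1.1 = 1 := congrArg Subtype.val (inv_mul_cancel g.1)
  have h2 : J * (g.1.1.map σ)ᵀ = g.1⁻¹.1 * J := by
    calc J * (g.1.1.map σ)ᵀ = (g.1⁻¹.1 * g.1.1) * (J * (g.1.1.map σ)ᵀ) := by
          rw [h1, Matrix.one_mul]
      _ = g.1⁻¹.1 * (g.1.1 * J * (g.1.1.map σ)ᵀ) := by simp only [Matrix.mul_assoc]
      _ = g.1⁻¹.1 * J := by rw [hg]
  have h3 : (g.1.1.map σ)ᵀ = J⁻¹ * (g.1⁻¹.1 * J) := by
    rw [← h2, ← Matrix.mul_assoc, Matrix.nonsing_inv_mul _ hu, Matrix.one_mul]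
  have h4 : nmM (ta g⁻¹.1) = nmM ((g.1.1.map σ)ᵀ) := by
    change nmM (ta g.1⁻¹) = _
    rw [ta_inv, nmM_T, nmM_T, nmM_map hσ]
  have h5 : nmM g.1⁻¹.1 = nmM (ta g.1) := (nmM_T _).symm
  have e0 := nmM_nonneg (ta g.1)
  have e1 := nmM_nonneg J
  have e2 := nmM_nonneg J⁻¹
  rw [h4, h3]
  calc nmM (J⁻¹ * (g.1⁻¹.1 * J)) ≤ Fintype.card n * (nmM J⁻¹ * nmM (g.1⁻¹.1 * J)) := nmM_mul _ _
    _ ≤ Fintype.card n * (nmM J⁻¹ * (Fintype.card n * (nmM (ta g.1) * nmM J))) := by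
        rw [← h5]
        exact mul_le_mul_of_nonneg_left (mul_le_mul_of_nonneg_left (nmM_mul _ _) e2)
          (Nat.cast_nonneg _)
    _ = Fintype.card n * (nmM J⁻¹ * Fintype.card n * nmM J) * nmM (ta g.1) := by ring
    _ ≤ _ := by nlinarith

include hF hσ in
theorem cpt_nm [ProperSpace k] (C : ℝ) : IsCompact {g : FormGroup σ J | nmM (ta g.1) ≤ C} := by
  have hσc : Continuous σ := continuous_of_norm hσ
  obtain ⟨B, hB, hBi⟩ := inv_le hF hσ
  have h1 : IsClosedEmbedding (fun g : FormGroup σ J => g.1.1) :=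
    H303.isClosedEmbedding_val.comp (H303.isClosed_formGroup hσc J).isClosedEmbedding_subtypeVal
  have h2 : IsCompact {A : Matrix n n k | nmM A ≤ B * C} := by
    have h3 : IsCompact (Metric.closedBall (0 : n → n → k) (B * C)) := isCompact_closedBall _ _
    have h4 : Metric.closedBall (0 : n → n → k) (B * C) = {A : n → n → k | ‖A‖ ≤ B * C} := by
      ext A
      rw [Metric.mem_closedBall, dist_zero_right]
      exact Iff.rfl
    rw [h4] at h3
    exact h3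
  refine (h1.isCompact_preimage h2).of_isClosed_subset ?_ ?_
  · exact isClosed_le (nmM_cont.comp (ta_cont.comp continuous_subtype_val)) continuous_const
  · intro g hg
    change nmM g.1.1 ≤ B * C
    have h3 := hBi g
    have h4 : nmM (ta g⁻¹.1) = nmM g.1.1 := by
      change nmM (ta g.1⁻¹) = _
      rw [ta_inv, nmM_T]
    rw [← h4]
    exact h3.trans (mul_le_mul_of_nonneg_left hg hB.le)

omit [Nonempty n] in
include hF hσ in
/-- two singular subspaces: an unbounded set of isometries preserves both -/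
theorem unb_two {j j' : ℕ} (x : SGr σ J j) (y : SGr σ J j') (C : ℝ) :
    ∃ g : FormGroup σ J, g • x = x ∧ g • y = y ∧ C ≤ nmM (ta g.1) := by
  obtain ⟨g, ⟨h1, h2⟩, i, i', h3⟩ := flags_unb (G := FormGroup σ J) hF.fm (hasTor hσ hF (GT_le hF))
    (𝒳 := {x.S}) (𝒴 := {y.S}) (by rintro X rfl; exact x.sing) (by rintro X rfl; exact y.sing)
    (IsChain.singleton) (IsChain.singleton) C
  have e1 : act (g⁻¹).1⁻¹ x.S = x.S := by
    have : (g⁻¹).1⁻¹ = g.1 := inv_inv g.1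
    rw [this]
    exact h1 _ rfl
  have e2 : act (g⁻¹).1⁻¹ y.S = y.S := by
    have : (g⁻¹).1⁻¹ = g.1 := inv_inv g.1
    rw [this]
    exact h2 _ rfl
  refine ⟨g⁻¹, SGr.ext e1, SGr.ext e2, ?_⟩
  change C ≤ nmM (ta g.1⁻¹)
  rw [ta_inv, nmM_T]
  exact h3.le.trans (entry_le _ i i')

end form

/-! ### Contraction by an expanding dilation -/

section con

theorem pow_conj_g {G P : Type} [Group G] {b : G} {n : P → G} {δ : P → P}
    (hb : ∀ s, b * n s = n (δ s) * b) (N : ℕ) (s : P) :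
    b ^ N * n s = n (δ^[N] s) * b ^ N := by
  induction N generalizing s with
  | zero => simp
  | succ N ih =>
    rw [pow_succ, mul_assoc, hb, ← mul_assoc, ih, mul_assoc, Function.iterate_succ_apply]

theorem con_gen {G P : Type} [Group G] [TopologicalSpace G] [NormedAddCommGroup P] {b : G}
    {n : P → G} (hn : Continuous n) (hn0 : n 0 = 1) (φ : P ≃ₜ+ P) {L : ℝ} (hL : 1 < L)
    (hφ : ∀ s, L * ‖s‖ ≤ ‖φ s‖) (hb : ∀ s, b * n s = n (φ s) * b) (s : P) :
    Tendsto (fun N : ℕ => (b ^ N)⁻¹ * n s * b ^ N) atTop (𝓝 1) := by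
  have h2 : ∀ N : ℕ, ‖φ.symm^[N] s‖ ≤ (L⁻¹) ^ N * ‖s‖ := by
    intro N
    induction N with
    | zero => simp
    | succ N ih =>
      rw [Function.iterate_succ_apply']
      have h3 := hφ (φ.symm (φ.symm^[N] s))
      rw [ContinuousAddEquiv.apply_symm_apply] at h3
      have h4 : ‖φ.symm (φ.symm^[N] s)‖ ≤ L⁻¹ * ‖φ.symm^[N] s‖ := by
        rw [← div_eq_inv_mul, le_div_iff₀ (by linarith), mul_comm]
        exact h3
      refine h4.trans ?_
      rw [pow_succ', mul_assoc]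
      exact mul_le_mul_of_nonneg_left ih (by positivity)
  have h3 : Tendsto (fun N : ℕ => φ.symm^[N] s) atTop (𝓝 0) := by
    refine squeeze_zero_norm h2 ?_
    have h5 : Tendsto (fun N : ℕ => (L⁻¹) ^ N) atTop (𝓝 0) :=
      tendsto_pow_atTop_nhds_zero_of_lt_one (by positivity) (inv_lt_one_of_one_lt₀ hL)
    simpa using h5.mul_const ‖s‖
  have h4 : ∀ N : ℕ, (b ^ N)⁻¹ * n s * b ^ N = n (φ.symm^[N] s) := by
    intro N
    rw [mul_assoc, inv_mul_eq_iff_eq_mul, pow_conj_g hb]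
    congr 2
    exact ((Function.LeftInverse.iterate (fun s => φ.apply_symm_apply s) N) s).symm
  have h5 := (hn.tendsto 0).comp h3
  rw [hn0] at h5
  refine h5.congr fun N => (h4 N).symm

end con

/-! ### The letters -/

section letters

variable {k : Type} [NontriviallyNormedField k] {ι : Type} [Fintype ι] [DecidableEq ι]
  {s : ℕ} {σ : k →+* k} {ε : k} {J₀ : Matrix ι ι k} (hF : Frm σ ε (hyp (s + 2) ε J₀))
  (hσ : ∀ x, ‖σ x‖ = ‖x‖) {w : k} (hw : w ≠ 0) (hσw : σ w = w) (hw1 : ‖w‖ < 1)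

theorem u1_eq : u1 hF = shF (J₀ := J₀) hF.inv hF.eps hF.seps 0 1 := by
  funext t
  refine jF_inj ?_
  rw [shF_val]
  refine Eq.trans (root2_coe (mp' (0 : Fin (s + 2)) 1) (mp' 1 0) (pm 1 1) t (-(ε * σ t))) ?_
  rw [neg_mul]

theorem b1_eq : b1 (ε := ε) (J₀ := J₀) hw hσw = toF hw hσw (Pi.single (0 : Fin (s + 2)) 1) := rfl

theorem b2_eq : b2 (ε := ε) (J₀ := J₀) (s := s) hw hσw = toF hw hσw (fun _ => 1) := rfl

theorem u2_val (c : V2 σ ε) : jF _ (u2 hF c) =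
    1 + (c : k) • Matrix.single (mI (1 : Fin (s + 2))) (pI (1 : Fin (s + 2))) ε := by
  change (tv σ (hyp (s + 2) ε J₀) (ep k ι 1) c.1).1 = _
  rw [tv_val (hf_ep 1 1), tvm]
  congr 1
  ext i j
  rw [Matrix.vecMulVec_apply, Matrix.smul_apply, Matrix.single_apply]
  have h1 : (hyp (s + 2) ε J₀ *ᵥ fun i => σ (ep k ι (1 : Fin (s + 2)) i)) i =
      if i = mI (1 : Fin (s + 2)) then ε else 0 := by
    have h2 : (fun i => σ (ep k ι (1 : Fin (s + 2)) i)) =
        Pi.single (Sum.inl (Sum.inl (1 : Fin (s + 2)))) 1 := by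
      funext i
      by_cases hi : i = Sum.inl (Sum.inl (1 : Fin (s + 2)))
      · subst hi; simp [ep]
      · rw [Pi.single_eq_of_ne hi, ep, Pi.single_eq_of_ne hi, map_zero]
    rw [h2, Matrix.mulVec_single_one]
    change hyp (s + 2) ε J₀ i (Sum.inl (Sum.inl (1 : Fin (s + 2)))) = _
    exact (hypAt_r (s + 2) ε J₀ 1).col i
  rw [h1]
  by_cases hi : i = mI (1 : Fin (s + 2))
  · rw [if_pos hi]
    by_cases hj : j = pI (1 : Fin (s + 2))
    · subst hj
      rw [if_pos ⟨hi.symm, rfl⟩, Pi.smul_apply]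
      simp [ep, mul_comm]
    · rw [if_neg (fun h => hj h.2.symm), Pi.smul_apply, ep, Pi.single_eq_of_ne hj, smul_zero,
        mul_zero]
  · rw [if_neg hi, if_neg (fun h => hi h.1.symm), zero_mul, smul_zero]

include hσ

theorem u1c : Continuous (u1 hF) := by
  rw [u1_eq]
  exact short_cont jF_ind (τ := tau σ ε) (continuous_const.mul (continuous_of_norm hσ))
    (shF_val hF.inv hF.eps hF.seps 0 1)

omit hσ in
theorem u2c : Continuous (u2 hF) := by
  refine long_cont (S := V2 σ ε) jF_ind (fun c => u2_val hF c)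

omit hσ in
theorem u10 : u1 hF 0 = 1 := by
  refine jF_inj ?_
  rw [u1_eq, shF_val, map_zero, mul_zero, zero_smul, zero_smul, add_zero, add_zero, map_one]

omit hσ in
theorem u20 : u2 hF 0 = 1 := by
  refine jF_inj ?_
  rw [u2_val, AddSubgroup.coe_zero, zero_smul, add_zero, map_one]

/-! #### Conjugation by the torus -/

omit hσ in
include hF hw in
theorem u1_conj (l : Fin (s + 2) → ℤ) (t : k) : toF (ε := ε) (J₀ := J₀) hw hσw l * u1 hF t =
    u1 hF (dilV (k := k) (wz hw (l 0 + l 1)) t) * toF hw hσw l := by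
  rw [u1_eq]
  refine conj_add' (j := jF _) (X := XX2 (tau σ ε) (Matrix.single (mI 0) (pI 1) 1)
    (Matrix.single (mI 1) (pI 0) 1)) jF_inj (shF_val hF.inv hF.eps hF.seps 0 1)
    (δ := fun t => dilV (k := k) (wz hw (l 0 + l 1)) t) ?_ t
  refine XX2_conj (c' := ((wz hw (l 0 + l 1) : kˣ) : k)) (sh_wt1 hw 0 1) ?_ (tau_wz hw hσw _)
  rw [add_comm (l 0)]
  exact sh_wt1 hw 1 0

include hw1 in
theorem con_l {l : Fin (s + 2) → ℤ} (hl : 0 < l 0 + l 1) (t : k) :
    Tendsto (fun N : ℕ => (toF (ε := ε) (J₀ := J₀) hw hσw l ^ N)⁻¹ * u1 hF t *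
      toF hw hσw l ^ N) atTop (𝓝 1) :=
  con_gen (u1c hF hσ) (u10 hF) (dilV (k := k) (wz hw (l 0 + l 1))) (wz_lt hw hw1 hl)
    (dilV_exp _) (u1_conj hF hw hσw l) t

include hw1 in
theorem con1 (t : k) : Tendsto (fun N : ℕ => (b1 (ε := ε) (J₀ := J₀) (s := s) hw hσw ^ N)⁻¹ *
    u1 hF t * b1 hw hσw ^ N) atTop (𝓝 1) := by
  refine con_l hF hσ hw hσw hw1 (l := Pi.single (0 : Fin (s + 2)) 1) ?_ t
  have h : (1 : Fin (s + 2)) ≠ 0 := by simp
  rw [Pi.single_eq_same, Pi.single_eq_of_ne h]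
  norm_num

include hw1 in
theorem con2 (t : k) : Tendsto (fun N : ℕ => (b2 (ε := ε) (J₀ := J₀) (s := s) hw hσw ^ N)⁻¹ *
    u1 hF t * b2 hw hσw ^ N) atTop (𝓝 1) :=
  con_l hF hσ hw hσw hw1 (l := fun _ => 1) (by norm_num) t

/-! #### Unbounded elements -/

omit hσ in
include hw1 in
theorem nm_tor {l : Fin (s + 2) → ℤ} (hl : l 0 = 1) : Tendsto (fun N : ℕ =>
    nmM (ta (toF (ε := ε) (J₀ := J₀) hw hσw l ^ N).1)) atTop atTop := by
  have h0 : 0 < ‖w‖ := norm_pos_iff.2 hw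
  refine tendsto_atTop_mono (fun N => ?_)
    (tendsto_pow_atTop_atTop_of_one_lt (one_lt_inv_iff₀.2 ⟨h0, hw1⟩))
  obtain ⟨g, hg⟩ : ∃ g : FormGroup σ (hyp (s + 2) ε J₀), g = toF hw hσw l ^ N := ⟨_, rfl⟩
  rw [← hg]
  have h1 : g.1.1 = Matrix.diagonal (fun x => dgF (s + 2) ι w l x ^ N) := by
    have h2 : jF _ g = (Matrix.diagonal (dgF (s + 2) ι w l)) ^ N := by
      rw [hg, map_pow, toF_val]
    rw [Matrix.diagonal_pow] at h2
    exact h2
  have h2 : g.1⁻¹.1 * g.1.1 = 1 := congrArg Subtype.val (inv_mul_cancel g.1)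
  have h3 := congrFun (congrFun h2 (pI (0 : Fin (s + 2)))) (pI (0 : Fin (s + 2)))
  rw [h1, Matrix.mul_diagonal, Matrix.one_apply_eq, dg_p, hl, zpow_one] at h3
  have h4 : ‖ta g.1 (pI (0 : Fin (s + 2))) (pI (0 : Fin (s + 2)))‖ = ‖w‖⁻¹ ^ N := by
    change ‖g.1⁻¹.1 (pI (0 : Fin (s + 2))) (pI (0 : Fin (s + 2)))‖ = _
    rw [eq_inv_of_mul_eq_one_left h3, norm_inv, norm_pow, inv_pow]
  rw [← h4]
  exact entry_le _ _ _

omit hσ in
theorem u1_inv (t : k) : (u1 hF t)⁻¹ = u1 hF (-t) := by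
  have h1 := sub_add' (j := jF _) (n := u1 hF) (X := XX2 (tau σ ε) (Matrix.single (mI 0) (pI 1) 1)
    (Matrix.single (mI 1) (pI 0) 1)) jF_inj (by
      rw [u1_eq]; exact shF_val hF.inv hF.eps hF.seps 0 1)
    (XX2_mul (single_mul0 (pm 1 0)) (single_mul0 (pm 1 1)) (single_mul0 (pm 0 0))
      (single_mul0 (pm 0 1))) 0 t
  rw [u10, one_mul, zero_sub] at h1
  exact h1

omit hσ in
theorem nm_u1 (t : k) : ‖t‖ ≤ nmM (ta (u1 hF t).1) := by
  have h1 : ta (u1 hF t).1 (pI (1 : Fin (s + 2))) (mI (0 : Fin (s + 2))) = -t := by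
    change (u1 hF t)⁻¹.1.1 (mI 0) (pI 1) = -t
    rw [u1_inv]
    change jF _ (u1 hF (-t)) (mI 0) (pI 1) = -t
    have h01 : (mI (1 : Fin (s + 2)) : Idx (s + 2) ι) ≠ mI 0 := mm (by simp)
    rw [u1_eq, shF_val, Matrix.add_apply, Matrix.add_apply, Matrix.smul_apply, Matrix.smul_apply,
      Matrix.single_apply_same, Matrix.one_apply_ne (mp' 0 1), Matrix.single_apply,
      if_neg (fun h => h01 h.1)]
    simp
  rw [← norm_neg, ← h1]
  exact entry_le _ _ _

omit hσ in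
include hF in
theorem unbu (g : FormGroup σ (hyp (s + 2) ε J₀)) (C : ℝ) :
    ∃ t, C ≤ nmM (ta (g * u1 hF t * g⁻¹).1) := by
  obtain ⟨B, hB⟩ : ∃ B : ℝ, B = Fintype.card (Idx (s + 2) ι) * (Fintype.card (Idx (s + 2) ι) *
      (nmM (ta g⁻¹.1) * nmM (ta g.1))) := ⟨_, rfl⟩
  have hB0 : 0 ≤ B := by
    rw [hB]
    have h1 := nmM_nonneg (ta g⁻¹.1)
    have h2 := nmM_nonneg (ta g.1)
    positivity
  obtain ⟨t, ht⟩ := NormedField.exists_lt_norm k ((B + 1) * |C|)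
  refine ⟨t, ?_⟩
  by_contra hcon
  rw [not_le] at hcon
  obtain ⟨D, hD⟩ : ∃ D : ℝ, D = nmM (ta (g * u1 hF t * g⁻¹).1) := ⟨_, rfl⟩
  have hD0 : 0 ≤ D := by rw [hD]; exact nmM_nonneg _
  have h1 : (u1 hF t).1 = g⁻¹.1 * (g * u1 hF t * g⁻¹).1 * g.1 := by
    have h2 : u1 hF t = g⁻¹ * (g * u1 hF t * g⁻¹) * g := by group
    exact congrArg Subtype.val h2
  have h2 : nmM (ta (u1 hF t).1) ≤ B * D := by
    rw [h1, ta_mul, ta_mul]
    have e1 := nmM_nonneg (ta g⁻¹.1)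
    have e2 := nmM_nonneg (ta g.1)
    calc nmM (ta g⁻¹.1 * ta (g * u1 hF t * g⁻¹).1 * ta g.1)
        ≤ Fintype.card (Idx (s + 2) ι) *
          (nmM (ta g⁻¹.1 * ta (g * u1 hF t * g⁻¹).1) * nmM (ta g.1)) := nmM_mul _ _
      _ ≤ Fintype.card (Idx (s + 2) ι) * ((Fintype.card (Idx (s + 2) ι) * (nmM (ta g⁻¹.1) * D)) *
            nmM (ta g.1)) := by
          rw [hD]
          exact mul_le_mul_of_nonneg_left (mul_le_mul_of_nonneg_right (nmM_mul _ _) e2)
            (Nat.cast_nonneg _)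
      _ = B * D := by rw [hB]; ring
  have h3 := nm_u1 hF t
  have h4 : D < C := by rw [hD]; exact hcon
  have h5 : C ≤ |C| := le_abs_self C
  have h6 : B * D ≤ (B + 1) * |C| := by nlinarith [abs_nonneg C]
  linarith

end letters

/-! ### The fields of `Geo`, word for word -/

section rec

theorem cc_fixE {k : Type} [NontriviallyNormedField k] {n : Type} [Fintype n] [DecidableEq n]
    {σ : k →+* k} {ε : k} {J : Matrix n n k} (hF : Frm σ ε J) {x : k} (hx : x ∈ V2 σ ε) {c : k}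
    (hc : σ c = c) : c * x ∈ V2 σ ε := by
  have hx' : x + ε * σ x = 0 := hx
  change c * x + ε * σ (c * x) = 0
  rw [map_mul, hc]
  linear_combination c * hx'

open Vale.Agent.P092.CL (Lt)

/-- the part of `CL.Geo` about the size, the root groups and the walls -/
structure GeoN {S P M V₁ V₂ : Type} [Group S] [MeasurableSpace V₁] [MeasurableSpace V₂]
    [TopologicalSpace S] [MulAction S P] [MulAction S M] [NormedAddCommGroup V₁]
    [NormedAddCommGroup V₂] (L : Lt S P M V₁ V₂) : Prop where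
  u1c : Continuous L.u1
  u10 : L.u1 0 = 1
  u2c : Continuous L.u2
  u20 : L.u2 0 = 1
  con1 : ∀ s, Tendsto (fun N : ℕ => (L.b1 ^ N)⁻¹ * L.u1 s * L.b1 ^ N) atTop (𝓝 1)
  con2 : ∀ s, Tendsto (fun N : ℕ => (L.b2 ^ N)⁻¹ * L.u1 s * L.b2 ^ N) atTop (𝓝 1)
  unb1 : ∀ (x y : P) (C : ℝ), ∃ g : S, g • x = x ∧ g • y = y ∧ C ≤ L.nm g
  unb2 : ∀ (x y : M) (C : ℝ), ∃ g : S, g • x = x ∧ g • y = y ∧ C ≤ L.nm g
  unbu : ∀ (g : S) (C : ℝ), ∃ s, C ≤ L.nm (g * L.u1 s * g⁻¹)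
  nm_pos : ∀ g, 0 < L.nm g
  nm_mul : ∃ C : ℝ, 0 < C ∧ ∀ g h, L.nm (g * h) ≤ C * (L.nm g * L.nm h)
  nm_inv : ∃ C : ℝ, 0 < C ∧ ∀ g, L.nm g⁻¹ ≤ C * L.nm g
  nm_c : Continuous L.nm
  nm_cpt : ∀ C : ℝ, IsCompact {g : S | L.nm g ≤ C}
  nm_b1 : Tendsto (fun N : ℕ => L.nm (L.b1 ^ N)) atTop atTop
  nm_b2 : Tendsto (fun N : ℕ => L.nm (L.b2 ^ N)) atTop atTop

variable {k : Type} [NontriviallyNormedField k] [ProperSpace k] [MeasurableSpace k] {ι : Type}
  [Fintype ι] [DecidableEq ι]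
  {s : ℕ} {σ : k →+* k} {ε : k} {J₀ : Matrix ι ι k} (hF : Frm σ ε (hyp (s + 2) ε J₀))
  (hσ : ∀ x, ‖σ x‖ = ‖x‖) {w : k} (hw : w ≠ 0) (hσw : σ w = w) (hw1 : ‖w‖ < 1)
  (μ₁ : Measure k) (μ₂ : Measure (V2 σ ε))

include hσ hw1

/-- **[CL-GEO], size, root groups, walls** -/
theorem geoN : GeoN (lt hF hw hσw μ₁ μ₂) where
  u1c := u1c hF hσ
  u10 := u10 hF
  u2c := u2c hF
  u20 := u20 hF
  con1 := con1 hF hσ hw hσw hw1
  con2 := con2 hF hσ hw hσw hw1
  unb1 x y C := unb_two hF hσ x y C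
  unb2 x y C := unb_two hF hσ x y C
  unbu g C := unbu hF g C
  nm_pos g := nmM_ne (ta_ne g.1)
  nm_mul := ⟨Fintype.card (Idx (s + 2) ι), by exact_mod_cast Fintype.card_pos, fun g h => by
    change nmM (ta (g.1 * h.1)) ≤ _
    rw [ta_mul]
    exact nmM_mul _ _⟩
  nm_inv := inv_le hF hσ
  nm_c := nmM_cont.comp (ta_cont.comp continuous_subtype_val)
  nm_cpt := cpt_nm hF hσ
  nm_b1 := nm_tor hw hσw hw1 (l := Pi.single (0 : Fin (s + 2)) 1) (Pi.single_eq_same _ _)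
  nm_b2 := nm_tor hw hσw hw1 (l := fun _ => 1) rfl

variable [BorelSpace k]

include hF in
omit [ProperSpace k] [MeasurableSpace k] hσ hw1 [BorelSpace k] in
theorem v2_ne : ∃ c : V2 σ ε, c ≠ 0 := by
  obtain ⟨c, hc0, hc⟩ := hF.cc
  exact ⟨⟨c, hc⟩, fun h => hc0 (congrArg Subtype.val h)⟩

omit [MeasurableSpace k] hw1 [BorelSpace k] in
theorem v2_proper : ProperSpace (V2 σ ε) := by
  have hc : IsClosed (V2 σ ε : Set k) :=
    isClosed_eq (continuous_id.add (continuous_const.mul (continuous_of_norm hσ)))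
      continuous_const
  exact ⟨fun x r => hc.isClosedEmbedding_subtypeVal.isCompact_preimage
    (isCompact_closedBall (x : k) r)⟩

/-- **[CL-ORB], growth: both root groups are spread out by the walls** -/
theorem sprL [μ₁.IsAddHaarMeasure] [μ₂.IsAddHaarMeasure] : SprL (lt hF hw hσw μ₁ μ₂) := by
  haveI := v2_proper (ε := ε) hσ
  have hσc : Continuous σ := continuous_of_norm hσ
  have h01 : (0 : Fin (s + 2)) ≠ 1 := by simp
  refine ⟨?_, ?_, ?_⟩
  · change ∃ ρ : ℝ, 0 < ρ ∧ ρ < 1 ∧ Spr μ₁ (toF hw hσw (Pi.single (0 : Fin (s + 2)) 1)) (u1 hF) ρ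
    rw [u1_eq]
    refine sp_sh hF.inv hF.eps hF.seps hσc hw hσw hw1 h01 ?_
    rw [Pi.single_eq_same, Pi.single_eq_of_ne h01.symm]
    norm_num
  · change ∃ ρ : ℝ, 0 < ρ ∧ ρ < 1 ∧ Spr μ₂ (toF hw hσw (fun _ => 1)) (u2 hF) ρ
    have hε : ε ≠ 0 := hF.eps_ne
    refine ⟨_, rt_pos _, rt_lt (wz_lt hw hw1 (m := 2) (by norm_num)) (dilS_exp _ _)
      (v2_ne hF), long_spr (S := V2 σ ε) (j := jF _) jF_inj jF_ind
      (Y := Matrix.single (mI (1 : Fin (s + 2))) (pI (1 : Fin (s + 2))) ε)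
      (u2_val hF) ?_ ?_ (c := wz hw 2)
      (fun x hx => ?_) (fun x hx => ?_) ?_⟩
    · rw [single_mul_single_of_ne _ _ _ _ (pm 1 1)]
    · intro h
      have h1 := congrFun (congrFun h (mI (1 : Fin (s + 2)))) (pI (1 : Fin (s + 2)))
      rw [Matrix.single_apply_same] at h1
      exact hε h1
    · exact cc_fixE hF hx (by rw [wz_val, map_zp hσw])
    · exact cc_fixE hF hx (by rw [wz_inv, map_zp hσw])
    · have h1 := sh_wt1 (r := s + 2) (ι := ι) (l := fun _ => (1 : ℤ)) hw (1 : Fin (s + 2))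
        (1 : Fin (s + 2))
      have h2 : Matrix.single (mI (1 : Fin (s + 2)) : Idx (s + 2) ι)
          (pI (1 : Fin (s + 2)) : Idx (s + 2) ι) ε =
          ε • Matrix.single (mI (1 : Fin (s + 2)) : Idx (s + 2) ι)
            (pI (1 : Fin (s + 2)) : Idx (s + 2) ι) (1 : k) := by
        rw [Matrix.smul_single, smul_eq_mul, mul_one]
      rw [h2, Matrix.mul_smul]
      change ε • (Matrix.diagonal (dgF (s + 2) ι w fun _ => 1) * _) =
        _ • (_ * Matrix.diagonal (dgF (s + 2) ι w fun _ => 1))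
      rw [h1, Matrix.smul_mul, smul_comm]
      rfl
  · change ∃ ρ : ℝ, 0 < ρ ∧ ρ < 1 ∧ Spr μ₁ (toF hw hσw (fun _ => 1)) (u1 hF) ρ
    rw [u1_eq]
    exact sp_sh hF.inv hF.eps hF.seps hσc hw hσw hw1 h01 (by norm_num)

end rec

end Vale.Agent.P092.H71.CLG
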