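import Vale.Agent.P092.H71.P.SprI
import Vale.Agent.P092.H303.Form

/-!
P092 (helper71), TEAM P, tracks 2 and 3, [CL-ORB]: the root groups of the isometry group
`FormGroup σ (hyp r ε J₀)` (symplectic and unitary groups of Witt index `≥ r`, any anisotropic or
isotropic rest `J₀`), and the orbit property of each of them under every torus element
`H303.torF hw l` which expands it; both legs of the row model, any source group.

Rows: `e_i = inl (inl i)`, `e_{-i} = inl (inr i)`. The lower root groups (`x ↦ x g` fixes `⟨e_i⟩`):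
`shF i j s = 1 + s E_{-i,j} - ε σ(s) E_{-j,i}` (root `e_i + e_j`), `lgF i t = 1 + t E_{-i,i}`
(root `2 e_i`), `mvF i j s = 1 + s E_{j,i} - σ(s) E_{-i,-j}` (root `e_i - e_j`).
-/

set_option linter.all false

open scoped InnerProductSpace ENNReal NNReal Pointwise
open Set Filter Topology MeasureTheory ContinuousLinearMap MeasureTheory.Measure Matrix

namespace Vale.Agent.P092.H71.CLO

open Vale.Agent.P092.H303 Vale.Agent.P092.H71.P
open Vale.Agent.P092.H368.SN (Spr)

section real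

variable {n : Type} [Fintype n] [DecidableEq n] {k : Type} [NontriviallyNormedField k]
  {G : Subgroup (SpecialLinearGroup n k)}

/-- the matrix realisation of a subgroup of `SL` -/
def jF (G : Subgroup (SpecialLinearGroup n k)) : G →* Matrix n n k where
  toFun g := g.1.1
  map_one' := rfl
  map_mul' _ _ := rfl

theorem jF_inj : Function.Injective (jF G) := fun _ _ h => Subtype.ext (Subtype.ext h)

theorem jF_ind : IsInducing (jF G) := by
  have h1 : IsInducing (fun g : SpecialLinearGroup n k => g.1) := ⟨rfl⟩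
  exact h1.comp IsInducing.subtypeVal

end real

section elts

variable {k : Type} [NontriviallyNormedField k] {r : ℕ} {ι : Type} [Fintype ι] [DecidableEq ι]
  {σ : k →+* k} {ε : k} {J₀ : Matrix ι ι k}

/-- index of `e_i` -/
abbrev pI (i : Fin r) : Idx r ι := .inl (.inl i)
/-- index of `e_{-i}` -/
abbrev mI (i : Fin r) : Idx r ι := .inl (.inr i)

theorem pm (i j : Fin r) : (pI i : Idx r ι) ≠ mI j := by simp [pI, mI]
theorem mp' (i j : Fin r) : (mI i : Idx r ι) ≠ pI j := by simp [pI, mI]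
theorem pp {i j : Fin r} (h : i ≠ j) : (pI i : Idx r ι) ≠ pI j := by simpa [pI] using h
theorem mm {i j : Fin r} (h : i ≠ j) : (mI i : Idx r ι) ≠ mI j := by simpa [mI] using h

/-- products of two matrix units which are transvections -/
theorem root2_coe {n : Type} [Fintype n] [DecidableEq n] {a b c d : n} (h : a ≠ b) (h' : c ≠ d)
    (hbc : b ≠ c) (t s : k) : (root2 h h' t s).1 =
      1 + (t • Matrix.single a b (1 : k) + s • Matrix.single c d (1 : k)) := by
  change transvection a b t * transvection c d s = _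
  rw [transvection, transvection, Matrix.add_mul, Matrix.one_mul, Matrix.mul_add, Matrix.mul_one,
    single_mul_single_of_ne _ _ _ _ hbc, Matrix.smul_single, Matrix.smul_single, smul_eq_mul,
    smul_eq_mul, mul_one, mul_one]
  abel

variable (hσ : ∀ x, σ (σ x) = x) (he : ε * ε = 1) (hse : σ ε = ε)

include hσ he hse

/-- the root `e_i + e_j` -/
def shF (i j : Fin r) (s : k) : FormGroup σ (hyp r ε J₀) :=
  ⟨root2 (mp' i j) (mp' j i) s (-ε * σ s), by
    refine root2_mem (hypAt_r r ε J₀ i) (hypAt_l r ε J₀ i) (hypAt_l r ε J₀ j) (hypAt_r r ε J₀ j)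
      (mp' i j) (mp' j i) (pm j j) (mp' i i) ?_ ?_
    · rw [map_mul, map_neg, hse, hσ, mul_one]
      linear_combination (-s) * he
    · rw [mul_one]; ring⟩

/-- the root `e_i - e_j` -/
def mvF {i j : Fin r} (hij : i ≠ j) (s : k) : FormGroup σ (hyp r ε J₀) :=
  ⟨root2 (pp hij.symm) (mm hij) s (-σ s), by
    refine root2_mem (hypAt_l r ε J₀ j) (hypAt_r r ε J₀ j) (hypAt_l r ε J₀ i) (hypAt_r r ε J₀ i)
      (pp hij.symm) (mm hij) (pm i i) (pm j j) ?_ ?_
    · rw [map_neg, hσ]; ring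
    · ring⟩

theorem shF_val (i j : Fin r) (s : k) : jF _ (shF (J₀ := J₀) hσ he hse i j s) =
    1 + (s • Matrix.single (mI i) (pI j) (1 : k) + (-ε * σ s) • Matrix.single (mI j) (pI i) (1 : k)) :=
  root2_coe (mp' i j) (mp' j i) (pm j j) _ _

omit he hse in
theorem mvF_val {i j : Fin r} (hij : i ≠ j) (s : k) :
    jF _ (mvF (ε := ε) (J₀ := J₀) hσ hij s) =
    1 + (s • Matrix.single (pI j) (pI i) (1 : k) + (-σ s) • Matrix.single (mI i) (mI j) (1 : k)) :=
  root2_coe (pp hij.symm) (mm hij) (pm i i) _ _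

omit hσ he hse

/-- the parameters of the long root groups -/
def skw (σ : k →+* k) (ε : k) : AddSubgroup k where
  carrier := {t | t + ε * σ t = 0}
  zero_mem' := by simp
  add_mem' {a b} ha hb := by
    have ha' : a + ε * σ a = 0 := ha
    have hb' : b + ε * σ b = 0 := hb
    change a + b + ε * σ (a + b) = 0
    rw [map_add]
    linear_combination ha' + hb'
  neg_mem' {a} ha := by
    have ha' : a + ε * σ a = 0 := ha
    change -a + ε * σ (-a) = 0
    rw [map_neg]
    linear_combination -ha'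

theorem mem_skw {t : k} : t ∈ skw σ ε ↔ t + ε * σ t = 0 := Iff.rfl

theorem skw_closed (hσc : Continuous σ) : IsClosed (skw σ ε : Set k) :=
  isClosed_eq (continuous_id.add (continuous_const.mul hσc)) continuous_const

theorem skw_proper [ProperSpace k] (hσc : Continuous σ) : ProperSpace (skw σ ε) :=
  ⟨fun x r => (skw_closed hσc).isClosedEmbedding_subtypeVal.isCompact_preimage
    (isCompact_closedBall (x : k) r)⟩

theorem skw_mul {c : k} (hc : σ c = c) {x : k} (hx : x ∈ skw σ ε) : c * x ∈ skw σ ε := by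
  rw [mem_skw] at hx ⊢
  rw [map_mul, hc]
  linear_combination c * hx

/-- the root `2 e_i` -/
def lgF (i : Fin r) (t : skw σ ε) : FormGroup σ (hyp r ε J₀) :=
  ⟨root2 (mp' i i) (mp' i i) (t : k) 0, by
    have ht := mem_skw.1 t.2
    have h1 : (root2 (mp' (ι := ι) i i) (mp' i i) (t : k) 0).1 =
        1 + Matrix.single (mI i) (pI i) (t : k) := by
      rw [root2_coe _ _ (pm i i), zero_smul, add_zero, Matrix.smul_single, smul_eq_mul, mul_one]
    have hl := hypAt_l r ε J₀ i
    have hr := hypAt_r r ε J₀ i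
    rw [mem_formGroup, h1]
    have h2 : ((1 + Matrix.single (mI i) (pI i) (t : k) : Matrix (Idx r ι) (Idx r ι) k).map σ)ᵀ =
        1 + Matrix.single (pI i) (mI i) (σ t) := by
      ext x y
      simp only [Matrix.transpose_apply, Matrix.map_apply, Matrix.add_apply, map_add]
      congr 1
      · by_cases hxy : x = y
        · subst hxy; simp
        · rw [Matrix.one_apply_ne hxy, Matrix.one_apply_ne (Ne.symm hxy), map_zero]
      · rw [Matrix.single_apply, Matrix.single_apply]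
        by_cases hh : mI i = y ∧ pI i = x
        · rw [if_pos hh, if_pos ⟨hh.2, hh.1⟩]
        · rw [if_neg hh, if_neg (fun h => hh ⟨h.2, h.1⟩), map_zero]
    rw [h2, Matrix.add_mul, Matrix.one_mul, hl.mul_left, Matrix.mul_add, Matrix.mul_one,
      Matrix.add_mul, hr.mul_right, single_mul_single_of_ne _ _ _ _ (mp' i i), add_zero,
      add_assoc, ← Matrix.single_add, mul_one, ht, Matrix.single_zero, add_zero]⟩

theorem lgF_val (i : Fin r) (t : skw σ ε) : jF _ (lgF (J₀ := J₀) i t) =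
    1 + (t : k) • Matrix.single (mI i) (pI i) (1 : k) := by
  change (root2 (mp' (ι := ι) i i) (mp' i i) (t : k) 0).1 = _
  rw [root2_coe _ _ (pm i i), zero_smul, add_zero]

/-- the torus elements -/
def toF {w : k} (hw : w ≠ 0) (hσw : σ w = w) (l : Fin r → ℤ) : FormGroup σ (hyp r ε J₀) :=
  ⟨torF r ι hw l, torF_mem r ε J₀ hw hσw l⟩

theorem toF_val {w : k} (hw : w ≠ 0) (hσw : σ w = w) (l : Fin r → ℤ) :
    jF _ (toF (ε := ε) (J₀ := J₀) hw hσw l) = Matrix.diagonal (dgF r ι w l) := rfl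

theorem diag_single {n : Type} [Fintype n] [DecidableEq n] (d : n → k) (a b : n) {c : k}
    (h : d a = c * d b) : Matrix.diagonal d * Matrix.single a b (1 : k) =
      c • (Matrix.single a b (1 : k) * Matrix.diagonal d) := by
  refine diag_conj fun i j hX => ?_
  rw [Matrix.single_apply] at hX
  by_cases hh : a = i ∧ b = j
  · rw [← hh.1, ← hh.2]; exact h
  · rw [if_neg hh] at hX
    exact absurd rfl hX

end elts

/-! ### The weights -/

section wt

variable {k : Type} [NontriviallyNormedField k] {r : ℕ} {ι : Type} [Fintype ι] [DecidableEq ι]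
  {σ : k →+* k} {ε : k} {J₀ : Matrix ι ι k} {w : k} (hw : w ≠ 0)

/-- the factor `w ^ (-m)` as a unit -/
noncomputable def wz (m : ℤ) : kˣ := (Units.mk0 w hw) ^ (-m)

theorem wz_val (m : ℤ) : ((wz hw m : kˣ) : k) = w ^ (-m) := by
  rw [wz, Units.val_zpow_eq_zpow_val, Units.val_mk0]

theorem wz_inv (m : ℤ) : (((wz hw m)⁻¹ : kˣ) : k) = w ^ m := by
  rw [Units.val_inv_eq_inv_val, wz_val, _root_.zpow_neg, inv_inv]

theorem wz_lt (hw1 : ‖w‖ < 1) {m : ℤ} (hm : 0 < m) : 1 < ‖((wz hw m : kˣ) : k)‖ := by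
  rw [wz_val, norm_zpow, _root_.zpow_neg]
  have h0 : 0 < ‖w‖ := norm_pos_iff.2 hw
  obtain ⟨j, rfl⟩ : ∃ j : ℕ, m = j + 1 := ⟨(m - 1).toNat, by omega⟩
  have h1 : ‖w‖ ^ ((j : ℤ) + 1) < 1 := by
    have h2 : ‖w‖ ^ ((j : ℤ) + 1) = ‖w‖ ^ (j + 1) := by
      rw [← zpow_natCast]; push_cast; rfl
    rw [h2]
    exact pow_lt_one₀ (norm_nonneg _) hw1 (Nat.succ_ne_zero j)
  exact (one_lt_inv₀ (zpow_pos h0 _)).2 h1

theorem dg_p (l : Fin r → ℤ) (i : Fin r) : dgF r ι w l (pI i) = w ^ l i := rfl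
theorem dg_m (l : Fin r → ℤ) (i : Fin r) : dgF r ι w l (mI i) = w ^ (-l i) := rfl

theorem map_zp (hσw : σ w = w) (m : ℤ) : σ (w ^ m) = w ^ m := by
  rw [map_zpow₀, hσw]

/-- `-ε σ` as an additive map -/
def tau (σ : k →+* k) (ε : k) : k →+ k := (AddMonoidHom.mulLeft (-ε)).comp σ.toAddMonoidHom

theorem tau_apply (s : k) : tau σ ε s = -ε * σ s := rfl

include hw in
theorem tau_wz (hσw : σ w = w) (m : ℤ) (s : k) : tau σ ε (((wz hw m : kˣ) : k) * s) =
    ((wz hw m : kˣ) : k) * tau σ ε s := by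
  rw [tau_apply, tau_apply, map_mul, wz_val, map_zp hσw]
  ring

end wt

/-! ### The orbit property -/

section orb

open Vale.Agent.P092.SR Vale.Agent.P092.H160 Vale.Agent.P092.H368
open Vale.Agent.P092.RC (Cm KK pic XX Om lam₁ lam₂)
open Vale.Agent.P092.H790.CTA (ORBG)

variable {k : Type} [NontriviallyNormedField k] [ProperSpace k] [MeasurableSpace k] [BorelSpace k]
  {r : ℕ} {ι : Type} [Fintype ι] [DecidableEq ι] {σ : k →+* k} {ε : k} {J₀ : Matrix ι ι k}
  (hσ : ∀ x, σ (σ x) = x) (he : ε * ε = 1) (hse : σ ε = ε) (hσc : Continuous σ)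
  {w : k} (hw : w ≠ 0) (hσw : σ w = w) (hw1 : ‖w‖ < 1) {l : Fin r → ℤ}
  {E : Type} [Group E] [TopologicalSpace E] [IsTopologicalGroup E] [LocallyCompactSpace E]
  [SecondCountableTopology E] [T2Space E] [MeasurableSpace E] [BorelSpace E]
  {φ : FormGroup σ (hyp r ε J₀) →* E} (hφc : Continuous φ) (hφ : PrpG φ)
  {Γ : Subgroup E} [DiscreteTopology Γ] [MeasurableSpace (E ⧸ Γ)] [BorelSpace (E ⧸ Γ)]
  {ν : Measure (E ⧸ Γ)} [IsProbabilityMeasure ν] [Countable Γ]
  (hν : ∀ g : E, ν.map (fun x => g • x) = ν)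
  {Λ : Type} [Group Λ] {α : Γ →* (Ell2 Λ →L[ℂ] Ell2 Λ)} (hα : Frame α)

/-- the orbit property of a family, first leg -/
def OR₁ {P : Type} [NormedAddCommGroup P] [MeasurableSpace P] (μ : Measure P)
    (b : FormGroup σ (hyp r ε J₀)) (φ : FormGroup σ (hyp r ε J₀) →* E)
    (n : P → FormGroup σ (hyp r ε J₀)) : Prop :=
  ∃ ρ : ℝ, 0 < ρ ∧ ρ < 1 ∧ ORBG μ (φ b) (fun s => φ (n s)) ρ (pic hν hα)
    (lam₁ ν α) (XX ν Λ ∪ Set.range (lam₂ ν α)) (Om ν Λ)

/-- the orbit property of a family, second leg -/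
def OR₂ {P : Type} [NormedAddCommGroup P] [MeasurableSpace P] (μ : Measure P)
    (b : FormGroup σ (hyp r ε J₀)) (φ : FormGroup σ (hyp r ε J₀) →* E)
    (n : P → FormGroup σ (hyp r ε J₀)) : Prop :=
  ∃ ρ : ℝ, 0 < ρ ∧ ρ < 1 ∧ ORBG μ (φ b) (fun s => φ (n s)) ρ (pic hν hα)
    (lam₂ ν α) (XX ν Λ ∪ Set.range (lam₁ ν α)) (Om ν Λ)

section sh

variable {i j : Fin r} (hij : i ≠ j) (hl : 0 < l i + l j) {μ : Measure k} [μ.IsAddHaarMeasure]

omit [ProperSpace k] [MeasurableSpace k] [BorelSpace k] in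
include hw in
theorem sh_wt1 (i j : Fin r) : Matrix.diagonal (dgF r ι w l) * Matrix.single (mI i) (pI j) (1 : k) =
    ((wz hw (l i + l j) : kˣ) : k) •
      (Matrix.single (mI i) (pI j) (1 : k) * Matrix.diagonal (dgF r ι w l)) := by
  refine diag_single _ _ _ ?_
  rw [dg_m, dg_p, wz_val, ← zpow_add₀ hw]
  congr 1
  ring

include hw1 hl in
omit [ProperSpace k] [MeasurableSpace k] [BorelSpace k] in
theorem sh_exp : 1 < ‖((wz hw (l i + l j) : kˣ) : k)‖ := wz_lt hw hw1 hl

omit [ProperSpace k] [MeasurableSpace k] [BorelSpace k] in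
theorem single_mul0 {n : Type} [Fintype n] [DecidableEq n] {a b c d : n} (h : b ≠ c) :
    Matrix.single a b (1 : k) * Matrix.single c d (1 : k) = 0 := by
  rw [single_mul_single_of_ne _ _ _ _ h]

include hσc hw1 hφc hφ hij hl

/-- **root `e_i + e_j`, first leg** -/
theorem orb_sh₁ : OR₁ hν hα μ (toF hw hσw l) φ (shF (J₀ := J₀) hσ he hse i j) := by
  refine short_orb₁ (j := jF _) jF_inj jF_ind (τ := tau σ ε) (continuous_const.mul hσc)
    (Y₁ := Matrix.single (mI i) (pI j) 1) (Y₂ := Matrix.single (mI j) (pI i) 1)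
    (shF_val hσ he hse i j)
    (single_mul0 (pm j i)) (single_mul0 (pm j j)) (single_mul0 (pm i i)) (single_mul0 (pm i j))
    ⟨mI i, pI j, ?_, ?_⟩ (c := wz hw (l i + l j)) (sh_exp hw hw1 hl)
    (c' := ((wz hw (l i + l j) : kˣ) : k)) ?_ ?_ (tau_wz hw hσw _) hφc hφ hν hα
  · rw [Matrix.single_apply_same]; exact one_ne_zero
  · rw [Matrix.single_apply, if_neg]
    intro h
    exact (mm hij) h.1.symm
  · exact sh_wt1 hw i j
  · rw [add_comm (l i)]
    exact sh_wt1 hw j i

/-- **root `e_i + e_j`, second leg** -/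
theorem orb_sh₂ : OR₂ hν hα μ (toF hw hσw l) φ (shF (J₀ := J₀) hσ he hse i j) := by
  refine short_orb₂ (j := jF _) jF_inj jF_ind (τ := tau σ ε) (continuous_const.mul hσc)
    (Y₁ := Matrix.single (mI i) (pI j) 1) (Y₂ := Matrix.single (mI j) (pI i) 1)
    (shF_val hσ he hse i j)
    (single_mul0 (pm j i)) (single_mul0 (pm j j)) (single_mul0 (pm i i)) (single_mul0 (pm i j))
    ⟨mI i, pI j, ?_, ?_⟩ (c := wz hw (l i + l j)) (sh_exp hw hw1 hl)
    (c' := ((wz hw (l i + l j) : kˣ) : k)) ?_ ?_ (tau_wz hw hσw _) hφc hφ hν hα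
  · rw [Matrix.single_apply_same]; exact one_ne_zero
  · rw [Matrix.single_apply, if_neg]
    intro h
    exact (mm hij) h.1.symm
  · exact sh_wt1 hw i j
  · rw [add_comm (l i)]
    exact sh_wt1 hw j i

end sh

/-! #### root `e_i - e_j` -/

section mv

variable {i j : Fin r} (hij : i ≠ j) (hl : 0 < l i - l j) {μ : Measure k} [μ.IsAddHaarMeasure]

omit [ProperSpace k] [MeasurableSpace k] [BorelSpace k] in
include hw in
theorem mv_wt1 (i j : Fin r) : Matrix.diagonal (dgF r ι w l) * Matrix.single (pI j) (pI i) (1 : k) =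
    ((wz hw (l i - l j) : kˣ) : k) •
      (Matrix.single (pI j) (pI i) (1 : k) * Matrix.diagonal (dgF r ι w l)) := by
  refine diag_single _ _ _ ?_
  rw [dg_p, dg_p, wz_val, ← zpow_add₀ hw]
  congr 1
  ring

omit [ProperSpace k] [MeasurableSpace k] [BorelSpace k] in
include hw in
theorem mv_wt2 (i j : Fin r) : Matrix.diagonal (dgF r ι w l) * Matrix.single (mI i) (mI j) (1 : k) =
    ((wz hw (l i - l j) : kˣ) : k) •
      (Matrix.single (mI i) (mI j) (1 : k) * Matrix.diagonal (dgF r ι w l)) := by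
  refine diag_single _ _ _ ?_
  rw [dg_m, dg_m, wz_val, ← zpow_add₀ hw]
  congr 1
  ring

include hσ hσc hw1 hφc hφ hij hl

/-- **root `e_i - e_j`, first leg** -/
theorem orb_mv₁ : OR₁ hν hα μ (toF hw hσw l) φ (mvF (ε := ε) (J₀ := J₀) hσ hij) := by
  refine short_orb₁ (j := jF _) jF_inj jF_ind (τ := tau σ 1) (continuous_const.mul hσc)
    (Y₁ := Matrix.single (pI j) (pI i) 1) (Y₂ := Matrix.single (mI i) (mI j) 1)
    (fun s => ?_)
    (single_mul0 (pp hij)) (single_mul0 (pm i i)) (single_mul0 (mp' j j))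
    (single_mul0 (mm hij.symm)) ⟨pI j, pI i, ?_, ?_⟩ (c := wz hw (l i - l j)) (wz_lt hw hw1 hl)
    (c' := ((wz hw (l i - l j) : kˣ) : k)) ?_ ?_ (tau_wz hw hσw _) hφc hφ hν hα
  · rw [mvF_val hσ hij, tau_apply, neg_one_mul]
  · rw [Matrix.single_apply_same]; exact one_ne_zero
  · rw [Matrix.single_apply, if_neg]
    intro h
    exact (mp' _ _) h.1
  · exact mv_wt1 hw i j
  · exact mv_wt2 hw i j

/-- **root `e_i - e_j`, second leg** -/
theorem orb_mv₂ : OR₂ hν hα μ (toF hw hσw l) φ (mvF (ε := ε) (J₀ := J₀) hσ hij) := by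
  refine short_orb₂ (j := jF _) jF_inj jF_ind (τ := tau σ 1) (continuous_const.mul hσc)
    (Y₁ := Matrix.single (pI j) (pI i) 1) (Y₂ := Matrix.single (mI i) (mI j) 1)
    (fun s => ?_)
    (single_mul0 (pp hij)) (single_mul0 (pm i i)) (single_mul0 (mp' j j))
    (single_mul0 (mm hij.symm)) ⟨pI j, pI i, ?_, ?_⟩ (c := wz hw (l i - l j)) (wz_lt hw hw1 hl)
    (c' := ((wz hw (l i - l j) : kˣ) : k)) ?_ ?_ (tau_wz hw hσw _) hφc hφ hν hα
  · rw [mvF_val hσ hij, tau_apply, neg_one_mul]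
  · rw [Matrix.single_apply_same]; exact one_ne_zero
  · rw [Matrix.single_apply, if_neg]
    intro h
    exact (mp' _ _) h.1
  · exact mv_wt1 hw i j
  · exact mv_wt2 hw i j

end mv

/-! #### root `2 e_i` -/

section lg

variable {i : Fin r} (hl : 0 < l i) [ProperSpace (skw σ ε)] {μ : Measure (skw σ ε)}
  [μ.IsAddHaarMeasure] [μ.Regular] (hS : ∃ s : skw σ ε, s ≠ 0)

include hw1 hφc hφ hl hS

/-- **root `2 e_i`, first leg** -/
theorem orb_lg₁ : OR₁ hν hα μ (toF hw hσw l) φ (lgF (J₀ := J₀) i) := by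
  refine long_orb₁ (j := jF _) jF_inj jF_ind (Y := Matrix.single (mI i) (pI i) 1)
    (lgF_val i) (single_mul0 (pm i i)) ?_ (c := wz hw (l i + l i)) (wz_lt hw hw1 (by omega))
    (fun x hx => skw_mul (by rw [wz_val, map_zp hσw]) hx)
    (fun x hx => skw_mul (by rw [wz_inv, map_zp hσw]) hx) (sh_wt1 hw i i) hS hφc hφ hν hα
  intro h
  have h1 := congrFun (congrFun h (mI i)) (pI i)
  rw [Matrix.single_apply_same] at h1
  exact one_ne_zero h1

/-- **root `2 e_i`, second leg** -/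
theorem orb_lg₂ : OR₂ hν hα μ (toF hw hσw l) φ (lgF (J₀ := J₀) i) := by
  refine long_orb₂ (j := jF _) jF_inj jF_ind (Y := Matrix.single (mI i) (pI i) 1)
    (lgF_val i) (single_mul0 (pm i i)) ?_ (c := wz hw (l i + l i)) (wz_lt hw hw1 (by omega))
    (fun x hx => skw_mul (by rw [wz_val, map_zp hσw]) hx)
    (fun x hx => skw_mul (by rw [wz_inv, map_zp hσw]) hx) (sh_wt1 hw i i) hS hφc hφ hν hα
  intro h
  have h1 := congrFun (congrFun h (mI i)) (pI i)
  rw [Matrix.single_apply_same] at h1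
  exact one_ne_zero h1

end lg

end orb

end Vale.Agent.P092.H71.CLO
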