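import Vale.Agent.P092.H71.P.CLGeo
import Vale.Agent.P092.H725.SN.SizeN
import Vale.Agent.P092.H874.CLAdm

/-!
P092 (helper71), TEAM P, stages 2 and 3, [CL-GAP], Witt index at least three: the walls `b1`, `b2`
of the letters of `CL/Lt` have the gap `LeviGap`, every form, every characteristic, from the gap of
`SL_r(k)` and the theorem of Howe and Moore. Also the abstract push forward of the gap.
-/

set_option linter.all false

open scoped Matrix
open Set Filter Topology MeasureTheory Matrix Module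

namespace Vale.Agent.P092.H71.CLP

open Vale.Agent.P092.H303 (FormGroup Idx hyp torF torF_mem root2 dgF hypAt_l hypAt_r)
open Vale.Agent.P092.H714.Cl
open Vale.Agent.P092.H933
open Vale.Agent.P092.H71.CLO
open Vale.Agent.P092.H71.CLG
open Vale.Agent.P092.CL (ta nmM scal V2 ep em p0 m0 b1 b2 u1 u2 lt hf_ep Lt Adm)
open Vale.Agent.P092.RC (Moore)
open Vale.Agent.P092.H874.CLAdm (moore_nm)

/-! ### The gap is pushed forward -/

section push

/-- **the gap is pushed forward** along a homomorphism whose image is a Moore set -/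
theorem push {G S : Type} [Group G] [TopologicalSpace G] [Group S] [TopologicalSpace S]
    [IsTopologicalGroup S] (φ : G →* S) (hφ : Continuous φ) (hM : Moore (Set.range φ)) {a : G}
    {b : S} (h : LeviGap a) (hc : ∀ l, Commute l a → Commute (φ l) b) : LeviGap b := by
  intro 𝓗 _ _ _ σ hσ e he
  obtain ⟨p, hp, l, hl, hl'⟩ := h 𝓗 (σ.comp φ) (hσ.comp φ hφ.continuousAt) e he
  refine ⟨p, hp, fun i => φ (l i), fun i => hc _ (hl i), fun v hv =>
    hl' v fun η hη => hv η ?_⟩
  refine hM 𝓗 σ hσ.iso (fun ξ => ?_) η ?_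
  · exact continuous_iff_continuousAt.2 fun g => hσ.tendsto tendsto_id tendsto_const_nhds
  · rintro _ ⟨g, rfl⟩
    exact hη g

end push

/-! ### Witt index at least three: `SL_r(k)` -/

section levi

variable {k : Type} [NontriviallyNormedField k] {r : ℕ} {ι : Type} [Fintype ι] [DecidableEq ι]
  {σ : k →+* k} {ε : k} {J₀ : Matrix ι ι k}

/-- `g` on the first half, `(σ g)⁻ᵀ` on the second half -/
def lvM (σ : k →+* k) (ι : Type) [DecidableEq ι] (g : SpecialLinearGroup (Fin r) k) :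
    Matrix (Idx r ι) (Idx r ι) k :=
  fromBlocks (fromBlocks g.1 0 0 ((g⁻¹).1.map σ)ᵀ) 0 0 1

theorem lvM_mul (g h : SpecialLinearGroup (Fin r) k) :
    lvM σ ι (g * h) = lvM σ ι g * lvM σ ι h := by
  unfold lvM
  rw [fromBlocks_multiply, fromBlocks_multiply, _root_.mul_inv_rev]
  have e : ((h⁻¹ * g⁻¹).1.map σ)ᵀ = ((g⁻¹).1.map σ)ᵀ * ((h⁻¹).1.map σ)ᵀ := by
    rw [← transpose_mul, ← Matrix.map_mul]
    rfl
  rw [e]
  simp only [Matrix.mul_zero, Matrix.zero_mul, add_zero, zero_add, Matrix.mul_one]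
  rfl

theorem lvM_one : lvM (r := r) σ ι 1 = 1 := by
  unfold lvM
  rw [inv_one]
  change fromBlocks (fromBlocks (1 : Matrix (Fin r) (Fin r) k) 0 0
    ((1 : Matrix (Fin r) (Fin r) k).map σ)ᵀ) 0 0 1 = 1
  rw [Matrix.map_one σ (map_zero σ) (map_one σ), transpose_one, fromBlocks_one, fromBlocks_one]

theorem det_lvM (g : SpecialLinearGroup (Fin r) k) : (lvM σ ι g).det = 1 := by
  unfold lvM
  rw [det_fromBlocks_zero₂₁, det_fromBlocks_zero₂₁, det_transpose, det_one, mul_one]
  have h1 : ((g⁻¹).1.map σ).det = 1 := by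
    have h2 := (RingHom.map_det σ (g⁻¹).1).symm
    rw [(g⁻¹).2, map_one] at h2
    exact h2
  rw [h1, mul_one]
  exact g.2

theorem lvM_form (hσ : ∀ x, σ (σ x) = x) (g : SpecialLinearGroup (Fin r) k) :
    lvM σ ι g * hyp r ε J₀ * ((lvM σ ι g).map σ)ᵀ = hyp r ε J₀ := by
  have h1 : (((g⁻¹).1.map σ)ᵀ.map σ)ᵀ = (g⁻¹).1 := by
    ext i j
    simp [hσ]
  have h2 : g.1 * (g⁻¹).1 = 1 := congrArg Subtype.val (mul_inv_cancel g)
  have h3 : ((g⁻¹).1.map σ)ᵀ * (g.1.map σ)ᵀ = 1 := by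
    rw [← transpose_mul, ← Matrix.map_mul, h2, Matrix.map_one σ (map_zero σ) (map_one σ),
      transpose_one]
  unfold lvM hyp
  rw [fromBlocks_map, fromBlocks_map, fromBlocks_transpose, fromBlocks_transpose, h1,
    Matrix.map_one σ (map_zero σ) (map_one σ), transpose_one]
  have h0 : ∀ a b : Type, ((0 : Matrix a b k).map σ)ᵀ = 0 := by
    intro a b
    ext i j
    simp
  simp only [h0, fromBlocks_multiply, Matrix.mul_zero, Matrix.zero_mul, add_zero, zero_add,
    Matrix.mul_one, Matrix.one_mul, Matrix.mul_smul, Matrix.smul_mul, smul_zero]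
  rw [h2, h3]

/-- **`SL_r(k)` in the group of the form** -/
def lv (hσ : ∀ x, σ (σ x) = x) : SpecialLinearGroup (Fin r) k →* FormGroup σ (hyp r ε J₀) where
  toFun g := ⟨⟨lvM σ ι g, det_lvM g⟩, lvM_form hσ g⟩
  map_one' := Subtype.ext (Subtype.ext lvM_one)
  map_mul' g h := Subtype.ext (Subtype.ext (lvM_mul g h))

theorem lv_cont (hσ : ∀ x, σ (σ x) = x) (hσc : Continuous σ) :
    Continuous (lv (r := r) (ε := ε) (J₀ := J₀) hσ) := by
  refine Continuous.subtype_mk (Continuous.subtype_mk ?_ _) _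
  have h1 : Continuous fun g : SpecialLinearGroup (Fin r) k => g.1 := continuous_subtype_val
  have h2 : Continuous fun g : SpecialLinearGroup (Fin r) k => (g⁻¹).1 :=
    h1.comp continuous_inv
  exact (h1.matrix_fromBlocks continuous_const continuous_const
    (h2.matrix_map hσc).matrix_transpose).matrix_fromBlocks continuous_const continuous_const
      continuous_const

/-- two words commute if the diagonal is constant on the support -/
theorem comm_dg (hσ : ∀ x, σ (σ x) = x) {w : k} (hw : w ≠ 0) (hσw : σ w = w) {l : Fin r → ℤ}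
    {g : SpecialLinearGroup (Fin r) k} (h : ∀ i j, l i ≠ l j → g.1 i j = 0)
    (h' : ∀ i j, l i ≠ l j → (g⁻¹).1 i j = 0) :
    Commute (lv (ε := ε) (J₀ := J₀) hσ g) (toF hw hσw l) := by
  apply Subtype.ext
  apply Subtype.ext
  change lvM σ ι g * Matrix.diagonal (dgF r ι w l) = Matrix.diagonal (dgF r ι w l) * lvM σ ι g
  ext x y
  rw [Matrix.mul_diagonal, Matrix.diagonal_mul]
  rcases x with (x | x) | x <;> rcases y with (y | y) | y
  · change g.1 x y * w ^ l y = w ^ l x * g.1 x y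
    by_cases e : l x = l y
    · rw [e, mul_comm]
    · rw [h x y e, zero_mul, mul_zero]
  · change (0 : k) * _ = _ * 0
    rw [zero_mul, mul_zero]
  · change (0 : k) * _ = _ * 0
    rw [zero_mul, mul_zero]
  · change (0 : k) * _ = _ * 0
    rw [zero_mul, mul_zero]
  · change σ ((g⁻¹).1 y x) * w ^ (-l y) = w ^ (-l x) * σ ((g⁻¹).1 y x)
    by_cases e : l y = l x
    · rw [e, mul_comm]
    · rw [h' y x e, map_zero, zero_mul, mul_zero]
  · change (0 : k) * _ = _ * 0
    rw [zero_mul, mul_zero]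
  · change (0 : k) * _ = _ * 0
    rw [zero_mul, mul_zero]
  · change (0 : k) * _ = _ * 0
    rw [zero_mul, mul_zero]
  · change (1 : Matrix ι ι k) x y * 1 = 1 * (1 : Matrix ι ι k) x y
    rw [mul_comm]

end levi

section three

variable {k : Type} [NontriviallyNormedField k] [ProperSpace k]
  {ι : Type} [Fintype ι] [DecidableEq ι] {s : ℕ} {σ : k →+* k} {ε : k} {J₀ : Matrix ι ι k}
  (hF : Frm σ ε (hyp (s + 2) ε J₀)) (hσ : ∀ x, ‖σ x‖ = ‖x‖) {w : k} (hw : w ≠ 0) (hσw : σ w = w)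

omit [ProperSpace k] in
theorem lv_unb (C : ℝ) : ∃ g : SpecialLinearGroup (Fin (s + 2)) k,
    C ≤ nmM (ta (lv (ι := ι) (ε := ε) (J₀ := J₀) hF.inv g).1) := by
  obtain ⟨t, ht⟩ := NormedField.exists_lt_norm k C
  have h01 : (0 : Fin (s + 2)) ≠ 1 := by simp
  obtain ⟨T, hT⟩ : ∃ T : SpecialLinearGroup (Fin (s + 2)) k, T.1 = transvection 0 1 t :=
    ⟨⟨transvection 0 1 t, det_transvection_of_ne _ _ h01 _⟩, rfl⟩
  refine ⟨T⁻¹, ?_⟩
  have e : (lv (ι := ι) (ε := ε) (J₀ := J₀) hF.inv T⁻¹).1 =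
      ((lv (ι := ι) (ε := ε) (J₀ := J₀) hF.inv T).1)⁻¹ := by
    rw [map_inv]
    rfl
  rw [e, ta_inv, nmM_T]
  refine ht.le.trans (le_trans (le_of_eq ?_)
    (entry_le _ (Sum.inl (Sum.inl 0)) (Sum.inl (Sum.inl 1))))
  change _ = ‖T.1 0 1‖
  rw [hT, transvection, Matrix.add_apply, Matrix.one_apply_ne h01, Matrix.single_apply_same,
    zero_add]

include hσ in
theorem lv_moore : Moore (Set.range (lv (r := s + 2) (ι := ι) (ε := ε) (J₀ := J₀) hF.inv)) :=
  moore_nm hσ hF fun C => by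
    obtain ⟨g, hg⟩ := lv_unb hF C
    exact ⟨_, ⟨g, rfl⟩, hg⟩

include hF in
/-- **[CL-GAP], Witt index at least three, point wall** -/
theorem gap3_b1 (hσ : ∀ x, ‖σ x‖ = ‖x‖) (hk : LocK k) (hs : 1 ≤ s) (hw1 : ‖w‖ < 1) :
    LeviGap (b1 (s := s) (ε := ε) (J₀ := J₀) hw hσw) := by
  have hc : Continuous σ := continuous_of_norm hσ
  have hne : ((Units.mk0 w hw)⁻¹ : kˣ).1 ^ (s + 1) ≠ w := by
    intro h
    have h1 := congrArg norm h
    rw [norm_pow, Units.val_inv_eq_inv_val, Units.val_mk0, norm_inv] at h1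
    have h2 : 1 ≤ (‖w‖⁻¹) ^ (s + 1) := one_le_pow₀ ((one_le_inv₀ (norm_pos_iff.2 hw)).2 hw1.le)
    linarith
  refine push (lv hF.inv) (lv_cont hF.inv hc) (lv_moore hF hσ)
    (H725.SN.leviGap_bw (N := s + 1) hk (by omega) (Units.mk0 w hw)) fun l hl => ?_
  rw [b1_eq]
  have key : ∀ g : SpecialLinearGroup (Fin (s + 2)) k,
      Commute g (SN.bw (N := s + 1) (Units.mk0 w hw)) → ∀ i j : Fin (s + 2),
      (Pi.single (0 : Fin (s + 2)) 1 : Fin (s + 2) → ℤ) i ≠
        (Pi.single (0 : Fin (s + 2)) 1 : Fin (s + 2) → ℤ) j → g.1 i j = 0 := by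
    intro g hg i j hij
    have h0 : g.1 * Matrix.diagonal (fun i : Fin (s + 2) =>
        if i = 0 then ((Units.mk0 w hw)⁻¹ : kˣ).1 ^ (s + 1) else w) =
        Matrix.diagonal (fun i : Fin (s + 2) =>
        if i = 0 then ((Units.mk0 w hw)⁻¹ : kˣ).1 ^ (s + 1) else w) * g.1 :=
      congrArg Subtype.val hg.eq
    have h1 := congrFun (congrFun h0 i) j
    rw [Matrix.mul_diagonal, Matrix.diagonal_mul] at h1
    have h2 : ∀ {a b : k}, a ≠ b → g.1 i j * a = b * g.1 i j → g.1 i j = 0 := by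
      intro a b hab h3
      have h4 : g.1 i j * (a - b) = 0 := by rw [mul_sub, h3]; ring
      exact (mul_eq_zero.1 h4).resolve_right (sub_ne_zero.2 hab)
    by_cases hi : i = 0
    · by_cases hj : j = 0
      · rw [hi, hj] at hij
        exact absurd rfl hij
      · rw [if_neg hj, if_pos hi] at h1
        exact h2 hne.symm h1
    · by_cases hj : j = 0
      · rw [if_pos hj, if_neg hi] at h1
        exact h2 hne h1
      · rw [Pi.single_eq_of_ne hi, Pi.single_eq_of_ne hj] at hij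
        exact absurd rfl hij
  exact comm_dg hF.inv hw hσw (key l hl) (key l⁻¹ hl.inv_left)

include hF in
/-- **[CL-GAP], Witt index at least three, maximal wall** -/
theorem gap3_b2 (hσ : ∀ x, ‖σ x‖ = ‖x‖) (hk : LocK k) (hs : 1 ≤ s) :
    LeviGap (b2 (s := s) (ε := ε) (J₀ := J₀) hw hσw) := by
  have hc : Continuous σ := continuous_of_norm hσ
  have h01 : (0 : Fin (s + 2)) ≠ 1 := by simp
  refine push (lv hF.inv) (lv_cont hF.inv hc) (lv_moore hF hσ)
    (leviGap_diag hk (N := s + 2) (by omega) h01 (a := 1) (d := fun _ => 1)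
      Matrix.diagonal_one.symm rfl) fun l _ => ?_
  rw [b2_eq]
  exact comm_dg hF.inv hw hσw (fun i j h => absurd rfl h) fun i j h => absurd rfl h

end three

end Vale.Agent.P092.H71.CLP
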