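import Vale.Agent.P092.H71.P.CLGap
import Vale.Agent.P092.H899.O8
import Vale.Agent.P092.H387.Ex1
import Vale.Agent.P092.CL.TopO

/-!
P092 (helper71), TEAM P, stage CL-O, [CL-GAP], Witt index at least three: the walls `b1O`, `b2O` of
the orthogonal letters have the gap `LeviGap` in `EUF`, from the gap of `SL_r(k)`.
-/

set_option linter.all false

open scoped Matrix
open Set Filter Topology MeasureTheory Matrix Module

namespace Vale.Agent.P092.H71.CLP

open Vale.Agent.P092.H303 (FormGroup Idx hyp torF torF_mem root2 dgF hypAt_l hypAt_r)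
open Vale.Agent.P092.H714.Cl
open Vale.Agent.P092.H933
open Vale.Agent.P092.H71.CLO
open Vale.Agent.P092.H71.CLG
open Vale.Agent.P092.CL
open Vale.Agent.P092.RC (Moore)
open Vale.Agent.P092.H370.Fo (EU)
open Vale.Agent.P092.H899.Ort (Om Good bf)
open Vale.Agent.P092.H15 (HMG)

section om

variable {k : Type} [NontriviallyNormedField k] {ι : Type} [Fintype ι] [DecidableEq ι]
  {r : ℕ} {J₀ : Matrix ι ι k}

/-- the Levi block of a transvection -/
theorem lvM_tr {i j : Fin r} (hij : i ≠ j) (t : k) :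
    lvM (RingHom.id k) ι (SpecialLinearGroup.transvection hij t) =
      (root2 (pp (ι := ι) hij) (mm (ι := ι) hij.symm) t (-t)).1 := by
  have h1 : (SpecialLinearGroup.transvection hij t)⁻¹ = SpecialLinearGroup.transvection hij (-t) := by
    refine inv_eq_of_mul_eq_one_right ?_
    apply Subtype.ext
    change transvection i j t * transvection i j (-t) = 1
    rw [Matrix.transvection_mul_transvection_same _ _ hij, add_neg_cancel,
      Matrix.transvection_zero]
  have h2 : (root2 (pp (ι := ι) hij) (mm (ι := ι) hij.symm) t (-t)).1 =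
      1 + Matrix.single (pI i) (pI j) t + Matrix.single (mI j) (mI i) (-t) := by
    change transvection (pI i) (pI j) t * transvection (mI j) (mI i) (-t) = _
    rw [transvection, transvection, Matrix.add_mul, Matrix.one_mul, Matrix.mul_add,
      Matrix.mul_one, single_mul_single_of_ne _ _ _ _ (pm j j)]
    abel
  rw [h2]
  unfold lvM
  rw [h1]
  change fromBlocks (fromBlocks (transvection i j t) 0 0
    ((transvection i j (-t)).map (RingHom.id k))ᵀ) 0 0 1 = _
  ext x y
  rcases x with (x | x) | x <;> rcases y with (y | y) | y <;>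
    simp [transvection, Matrix.single_apply, Matrix.one_apply, pI, mI, and_comm, eq_comm]

theorem lv_mem (h : Good (hyp r (1 : k) J₀)) (g : SpecialLinearGroup (Fin r) k) :
    (⟨lvM (RingHom.id k) ι g, det_lvM g⟩ : SpecialLinearGroup (Idx r ι) k) ∈
      Om (hyp r (1 : k) J₀) := by
  let φ : SpecialLinearGroup (Fin r) k →* SpecialLinearGroup (Idx r ι) k :=
    { toFun := fun g => ⟨lvM (RingHom.id k) ι g, det_lvM g⟩
      map_one' := Subtype.ext lvM_one
      map_mul' := fun g h => Subtype.ext (lvM_mul g h) }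
  have h1 : (Om (hyp r (1 : k) J₀)).comap φ = ⊤ := by
    refine H387.eq_top_of_transvection _ fun i j hij t => ?_
    rw [Subgroup.mem_comap]
    have e : φ (SpecialLinearGroup.transvection hij t) =
        root2 (pp (ι := ι) hij) (mm (ι := ι) hij.symm) t (-t) := Subtype.ext (lvM_tr hij t)
    rw [e]
    exact H899.Ort.root2_mem_om h.sym (fun x => H899.Ort.hyp_single _ _ _ _)
      (fun x => H899.Ort.hyp_single' _ _ _ _) (pm i i) (pm j j) _ _ t
  have h2 : g ∈ (Om (hyp r (1 : k) J₀)).comap φ := by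
    rw [h1]
    exact Subgroup.mem_top g
  exact h2

end om

section comm

variable {k : Type} [NontriviallyNormedField k] {ι : Type} [Fintype ι] [DecidableEq ι]
  {s : ℕ} {σ : k →+* k} {ε : k} {J₀ : Matrix ι ι k}

/-- what commutes with the wall `bw w` of `SL_r(k)` commutes with `b1` -/
theorem comm_bw (hσ : ∀ x, σ (σ x) = x) {w : k} (hw : w ≠ 0) (hσw : σ w = w) (hw1 : ‖w‖ < 1)
    {l : SpecialLinearGroup (Fin (s + 2)) k}
    (hl : Commute l (SN.bw (N := s + 1) (Units.mk0 w hw))) :
    Commute (lv (ι := ι) (ε := ε) (J₀ := J₀) hσ l) (b1 (s := s) hw hσw) := by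
  have hne : ((Units.mk0 w hw)⁻¹ : kˣ).1 ^ (s + 1) ≠ w := by
    intro h
    have h1 := congrArg norm h
    rw [norm_pow, Units.val_inv_eq_inv_val, Units.val_mk0, norm_inv] at h1
    have h2 : 1 ≤ (‖w‖⁻¹) ^ (s + 1) := one_le_pow₀ ((one_le_inv₀ (norm_pos_iff.2 hw)).2 hw1.le)
    linarith
  rw [b1_eq]
  have key : ∀ g : SpecialLinearGroup (Fin (s + 2)) k,
      Commute g (SN.bw (N := s + 1) (Units.mk0 w hw)) → ∀ i j : Fin (s + 2),
      (Pi.single (0 : Fin (s + 2)) 1 : Fin (s + 2) → ℤ) i ≠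
        (Pi.single (0 : Fin (s + 2)) 1 : Fin (s + 2) → ℤ) j → g.1 i j = 0 := by
    intro g hg i j hij
    have h0 : g.1 * Matrix.diagonal (fun i : Fin (s + 2) =>
        if i = 0 then ((Units.mk0 w hw)⁻¹ : kˣ).1 ^ (s + 1) else w) =
        Matrix.diagonal (fun i : Fin (s + 2) =>
        if i = 0 then ((Units.mk0 w hw)⁻¹ : kˣ).1 ^ (s + 1) else w) * g.1 :=
      congrArg Subtype.val hg.eq
    have h1 := congrFun (congrFun h0 i) j
    rw [Matrix.mul_diagonal, Matrix.diagonal_mul] at h1
    have h2 : ∀ {a b : k}, a ≠ b → g.1 i j * a = b * g.1 i j → g.1 i j = 0 := by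
      intro a b hab h3
      have h4 : g.1 i j * (a - b) = 0 := by rw [mul_sub, h3]; ring
      exact (mul_eq_zero.1 h4).resolve_right (sub_ne_zero.2 hab)
    by_cases hi : i = 0
    · by_cases hj : j = 0
      · rw [hi, hj] at hij
        exact absurd rfl hij
      · rw [if_neg hj, if_pos hi] at h1
        exact h2 hne.symm h1
    · by_cases hj : j = 0
      · rw [if_pos hj, if_neg hi] at h1
        exact h2 hne h1
      · rw [Pi.single_eq_of_ne hi, Pi.single_eq_of_ne hj] at hij
        exact absurd rfl hij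
  exact comm_dg hσ hw hσw (key l hl) (key l⁻¹ hl.inv_left)

end comm

section gap

variable {k : Type} [NontriviallyNormedField k] {ι : Type} [Fintype ι] [DecidableEq ι]
  {s : ℕ} {J₀ : Matrix ι ι k}

/-- **`SL_r(k)` in the orthogonal group `EUF`** -/
def lvO (h : OF J₀) (s : ℕ) : SpecialLinearGroup (Fin (s + 2)) k →*
    EUF (RingHom.id k) 1 (hyp (s + 2) 1 J₀) where
  toFun g := ⟨lv (fun _ => rfl) g, Subgroup.mem_subgroupOf.2 (by
    rw [h.eu s]
    exact lv_mem (h.good' s) g)⟩
  map_one' := Subtype.ext (map_one _)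
  map_mul' g g' := Subtype.ext (map_mul _ g g')

theorem lvO_cont (h : OF J₀) : Continuous (lvO h s) :=
  Continuous.subtype_mk (lv_cont (fun _ => rfl) continuous_id) _

/-- unbounded sets are Moore sets in `EUF` -/
theorem moore_nmO [ProperSpace k] (h : OF J₀) {T : Set (EUF (RingHom.id k) 1 (hyp (s + 2) 1 J₀))}
    (hT : ∀ C : ℝ, ∃ g ∈ T, C ≤ nmM (ta g.1.1)) : Moore T := by
  choose b hb hbt using fun N : ℕ => hT N
  have ht : Tendsto (fun N => nmM (ta (b N).1.1)) atTop atTop :=
    tendsto_atTop_mono hbt tendsto_natCast_atTop_atTop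
  have hc : Continuous fun g : EUF (RingHom.id k) 1 (hyp (s + 2) 1 J₀) => nmM (ta g.1.1) :=
    nmM_cont.comp (ta_cont.comp (continuous_subtype_val.comp continuous_subtype_val))
  exact H714.Sp.moore_of_tendsto (hmgO h s) (H714.Sp.tendsto_cocompact_of hc ht)
    (Eventually.of_forall hb)

variable [ProperSpace k]

theorem lvO_moore (h : OF J₀) : Moore (Set.range (lvO h s)) := by
  refine moore_nmO h fun C => ?_
  obtain ⟨t, ht⟩ := NormedField.exists_lt_norm k C
  have h01 : (0 : Fin (s + 2)) ≠ 1 := by simp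
  obtain ⟨T, hT⟩ : ∃ T : SpecialLinearGroup (Fin (s + 2)) k, T.1 = transvection 0 1 t :=
    ⟨⟨transvection 0 1 t, det_transvection_of_ne _ _ h01 _⟩, rfl⟩
  refine ⟨_, ⟨T⁻¹, rfl⟩, ?_⟩
  have e : (lvO h s T⁻¹).1.1 = ((lvO h s T).1.1)⁻¹ := by
    rw [map_inv]
    rfl
  rw [e, ta_inv, nmM_T]
  refine ht.le.trans (le_trans (le_of_eq ?_)
    (entry_le _ (Sum.inl (Sum.inl 0)) (Sum.inl (Sum.inl 1))))
  change _ = ‖T.1 0 1‖
  rw [hT, transvection, Matrix.add_apply, Matrix.one_apply_ne h01, Matrix.single_apply_same,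
    zero_add]

/-- **[CL-GAP], orthogonal groups, Witt index at least three, point wall** -/
theorem gapO3_b1 (h : OF J₀) (hk : LocK k) (hs : 1 ≤ s) {a : k} (ha : a ≠ 0) (ha1 : ‖a‖ < 1) :
    LeviGap (b1O h s ha) := by
  have hw : a ^ 2 ≠ 0 := pow_ne_zero 2 ha
  have hw1 : ‖a ^ 2‖ < 1 := by
    rw [norm_pow]
    exact pow_lt_one₀ (norm_nonneg _) ha1 (by norm_num)
  refine push (lvO h s) (lvO_cont h) (lvO_moore h)
    (H725.SN.leviGap_bw (N := s + 1) hk (by omega) (Units.mk0 (a ^ 2) hw)) fun l hl => ?_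
  have h1 := comm_bw (ι := ι) (ε := 1) (J₀ := J₀) (σ := RingHom.id k) (fun _ => rfl) hw rfl hw1 hl
  exact Subtype.ext h1.eq

/-- **[CL-GAP], orthogonal groups, Witt index at least three, maximal wall** -/
theorem gapO3_b2 (h : OF J₀) (hk : LocK k) (hs : 1 ≤ s) {a : k} (ha : a ≠ 0) :
    LeviGap (b2O h s ha) := by
  have hw : a ^ 2 ≠ 0 := pow_ne_zero 2 ha
  have h01 : (0 : Fin (s + 2)) ≠ 1 := by simp
  refine push (lvO h s) (lvO_cont h) (lvO_moore h)
    (leviGap_diag hk (N := s + 2) (by omega) h01 (a := 1) (d := fun _ => 1)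
      Matrix.diagonal_one.symm rfl) fun l _ => ?_
  have h1 := comm_dg (ι := ι) (ε := 1) (J₀ := J₀) (σ := RingHom.id k) (fun _ => rfl) hw rfl
    (l := fun _ => 1) (g := l) (fun i j h => absurd rfl h) fun i j h => absurd rfl h
  exact Subtype.ext h1.eq

end gap

end Vale.Agent.P092.H71.CLP
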