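import Vale.Agent.P092.H956.SpG5
import Vale.Agent.P092.H71.P.SizeSp

/-!
P092 (helper71), TEAM P, blocks [P-ORB], [P-SIZE]: the record `PBo` of both legs of the row model
without any gap hypothesis, for every local field with `2 ≠ 0` (helper956's gap).
-/

set_option linter.all false

open scoped InnerProductSpace ENNReal LinearAlgebra.Projectivization
open Set Filter Topology MeasureTheory ContinuousLinearMap

namespace Vale.Agent.P092.H71.P

open Vale.Agent.P092.H160 Vale.Agent.P092.H933 Vale.Agent.P092.H368 Vale.Agent.P092.H103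
open Vale.Agent.P092.SD (Ms UC)
open Vale.Agent.P092.H725 Vale.Agent.P092.H725.SN
open Vale.Agent.P092.SR Vale.Agent.P092.H839
open Vale.Agent.P092.RC (Cm KK pic XX Om GG PG lam₁ lam₂)
open Vale.Agent.P092.SP (B1 B2 Lg Lg' Sh Sh' Adm ORB nm m2 PH)
open Vale.Agent.P092.SP4

section gap

variable {k : Type} [NontriviallyNormedField k] [ProperSpace k] {E : Type} [Group E]
  [TopologicalSpace E] {ι : S4 k →* E} {a : E →* PG k 4}

/-- the gap of the wall of a point, every admissible source group -/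
theorem gapE1 (h : Adm ι a) (h2 : (2 : k) ≠ 0) (w : kˣ) : LeviGap (ι (B1 w)) :=
  (H956.leviGap_b1 h2 w).map ι h.cι h.sur

/-- the gap of the wall of a line, every admissible source group -/
theorem gapE2 (h : Adm ι a) (h2 : (2 : k) ≠ 0) (w : kˣ) : LeviGap (ι (B2 w)) :=
  (H956.leviGap_b2 h2 w).map ι h.cι h.sur

end gap

section leg

variable {k : Type} [NontriviallyNormedField k] [ProperSpace k] [MeasurableSpace k] [BorelSpace k]
  {μ : Measure k} [μ.IsAddHaarMeasure]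
  {E : Type} [Group E] [TopologicalSpace E] [IsTopologicalGroup E] [LocallyCompactSpace E]
  [SecondCountableTopology E] [T2Space E] [MeasurableSpace E] [BorelSpace E]
  {ι : S4 k →* E} {a : E →* PG k 4}
  {Γ : Subgroup E} [DiscreteTopology Γ] [Countable Γ] [MeasurableSpace (E ⧸ Γ)]
  [BorelSpace (E ⧸ Γ)] {ν : Measure (E ⧸ Γ)} [IsProbabilityMeasure ν]
  (hν : ∀ g : E, ν.map (fun x => g • x) = ν)
  {Λ : Type} [Group Λ] {α : Γ →* (Ell2 Λ →L[ℂ] Ell2 Λ)} (hα : Frame α)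
  (hΛ : ∀ s : Λ, s ≠ 1 → Set.Infinite {y : Λ | ∃ h, y = h * s * h⁻¹})
  {q : Γ → S4 k} (hq : PH q)

include hΛ hq

/-- **first leg, no hypothesis on the gap** -/
theorem pbo₁' (h : Adm ι a) (h2 : (2 : k) ≠ 0) {w : kˣ} (hw : ‖(w : k)‖ < 1) :
    PBo μ w ι (pic hν hα) (lam₁ ν α) (XX ν Λ ∪ Set.range (lam₂ ν α)) (Om ν Λ) (mS₁ ν hα) q :=
  pbo₁ hν hα hΛ hq h hw (gapE1 h h2 w) (gapE2 h h2 w)

/-- **second leg, no hypothesis on the gap** -/
theorem pbo₂' (h : Adm ι a) (h2 : (2 : k) ≠ 0) {w : kˣ} (hw : ‖(w : k)‖ < 1) :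
    PBo μ w ι (pic hν hα) (lam₂ ν α) (XX ν Λ ∪ Set.range (lam₁ ν α)) (Om ν Λ) (mS₂ ν hα) q :=
  pbo₂ hν hα hΛ hq h hw (gapE1 h h2 w) (gapE2 h h2 w)

end leg

end Vale.Agent.P092.H71.P
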