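import Vale.Agent.P092.H368.SN.Orb

/-!
P092 (helper71), TEAM P, block [P-ORB], part 1: `H368.SN.Spr` (the input of `orbE₁`, `orbE₂`, that is
of `CTA.ORBG` on the row model of any lattice) for families of several parameters: abelian families
with weights, Heisenberg families, families `1 + L s` of matrices; pull-back to subgroups and
push-forward to quotients. Every local field.
-/

set_option linter.all false

open MeasureTheory Filter Topology MeasureTheory.Measure Set
open scoped NNReal Pointwise ENNReal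

namespace Vale.Agent.P092.H71.P

open Vale.Agent.P092.H368.SN

section gen

variable {E E' P : Type} [Group E] [TopologicalSpace E] [Group E'] [TopologicalSpace E']
  [MeasurableSpace P] {μ : Measure P} {b : E} {n : P → E} {ρ : ℝ}

/-- pull-back along a continuous homomorphism, e.g. the inclusion of a subgroup -/
theorem spr_comap {p : E →* E'} (hp : Continuous p) (h : Spr μ (p b) (fun s => p (n s)) ρ) :
    Spr μ b n ρ := by
  intro C hC
  obtain ⟨c, hc⟩ := h (p '' C) (hC.image hp)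
  refine ⟨c, fun N s₀ => (measure_mono ?_).trans (hc N s₀)⟩
  intro s hs
  refine ⟨_, hs, ?_⟩
  simp only [map_mul, map_pow, map_inv]

/-- subgroups -/
theorem spr_sub {H : Subgroup E} {b : H} {n : P → H} (h : Spr μ (b : E) (fun s => (n s : E)) ρ) :
    Spr μ b n ρ :=
  spr_comap (p := H.subtype) continuous_subtype_val h

/-- push-forward along a homomorphism with relatively compact preimages of compact sets -/
theorem spr_push {p : E →* E'} (hp : ∀ C : Set E', IsCompact C → ∃ C' : Set E, IsCompact C' ∧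
    p ⁻¹' C ⊆ C') (h : Spr μ b n ρ) : Spr μ (p b) (fun s => p (n s)) ρ := by
  intro C hC
  obtain ⟨C', hC', hsub⟩ := hp C hC
  obtain ⟨c, hc⟩ := h C' hC'
  refine ⟨c, fun N s₀ => (measure_mono ?_).trans (hc N s₀)⟩
  intro s hs
  refine hsub ?_
  have e : p (b ^ N * n s * (b ^ N * n s₀)⁻¹) = p b ^ N * p (n s) * (p b ^ N * p (n s₀))⁻¹ := by
    simp only [map_mul, map_pow, map_inv]
  rw [Set.mem_preimage, e]
  exact hs

end gen

/-! ### Families with weights -/

section wt

variable {E : Type} [Group E] [TopologicalSpace E]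
  {k : Type} [NontriviallyNormedField k] [ProperSpace k] {κ : Type} [Fintype κ]

omit [ProperSpace k] in
theorem pow_conj_wt {b : E} {n : (κ → k) → E} {c : κ → k}
    (hb : ∀ s, b * n s = n (fun i => c i * s i) * b) (N : ℕ) (s : κ → k) :
    b ^ N * n s = n (fun i => c i ^ N * s i) * b ^ N := by
  induction N generalizing s with
  | zero => simp
  | succ N ih =>
    rw [pow_succ, mul_assoc, hb, ← mul_assoc, ih, mul_assoc]
    congr 2
    funext i
    ring

variable [MeasurableSpace k] [BorelSpace k] {μ : Measure k} [μ.IsAddHaarMeasure]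

/-- boxes -/
theorem measure_box (ws : κ → kˣ) (r : ℝ) :
    ∃ C : ℝ, 0 ≤ C ∧ ∀ (s₀ : κ → k) (N : ℕ),
      (Measure.pi fun _ : κ => μ) (Set.pi univ fun i =>
        Metric.closedBall (s₀ i) (r * ‖(ws i : k)‖ ^ N)) ≤
        ENNReal.ofReal (C * (∏ i, md (ws i)) ^ N) := by
  choose C hC0 hC using fun i => measure_ball μ (ws i) r
  refine ⟨∏ i, C i, Finset.prod_nonneg fun i _ => hC0 i, fun s₀ N => ?_⟩
  rw [Measure.pi_pi, ← Finset.prod_pow, ← Finset.prod_mul_distrib,
    ENNReal.ofReal_prod_of_nonneg fun i _ => mul_nonneg (hC0 i) (pow_nonneg (md_nonneg _) _)]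
  exact Finset.prod_le_prod' fun i _ => hC i (s₀ i) N

/-- **An abelian family over `k^κ` on which `b` acts with weights is spread out**; the rate is the
product of the moduli. -/
theorem spr_wt {b : E} {n : (κ → k) → E} (ws : κ → kˣ)
    (hadd : ∀ s t, n s * (n t)⁻¹ = n (s - t))
    (hb : ∀ s, b * n s = n (fun i => (((ws i)⁻¹ : kˣ) : k) * s i) * b)
    (hprop : ∀ C : Set E, IsCompact C → ∃ r : ℝ, ∀ s, n s ∈ C → ‖s‖ ≤ r) :
    Spr (Measure.pi fun _ : κ => μ) b n (∏ i, md (ws i)) := by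
  intro C hC
  obtain ⟨r, hr⟩ := hprop C hC
  obtain ⟨c, hc0, hc⟩ := measure_box (μ := μ) ws r
  refine ⟨c, fun N s₀ => (measure_mono fun s hs => ?_).trans (hc s₀ N)⟩
  have e1 : b ^ N * n s * (b ^ N * n s₀)⁻¹ =
      n (fun i => (((ws i)⁻¹ : kˣ) : k) ^ N * (s - s₀) i) := by
    have e2 : b ^ N * n s * (b ^ N * n s₀)⁻¹ = b ^ N * (n s * (n s₀)⁻¹) * (b ^ N)⁻¹ := by
      rw [mul_inv_rev]
      simp only [mul_assoc]
    rw [e2, hadd, pow_conj_wt hb, mul_inv_cancel_right]
  have hs' : n (fun i => (((ws i)⁻¹ : kˣ) : k) ^ N * (s - s₀) i) ∈ C := by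
    rw [← e1]
    exact hs
  have h1 := hr _ hs'
  rw [Set.mem_univ_pi]
  intro i
  have h2 := (norm_le_pi_norm (fun i => (((ws i)⁻¹ : kˣ) : k) ^ N * (s - s₀) i) i).trans h1
  have h3 : ‖(((ws i)⁻¹ : kˣ) : k) ^ N * (s - s₀) i‖ ≤ r := h2
  rw [norm_mul, norm_pow, Units.val_inv_eq_inv_val, norm_inv, inv_pow] at h3
  have hw : 0 < ‖((ws i : kˣ) : k)‖ ^ N := pow_pos (norm_pos_iff.2 (ws i).ne_zero) N
  rw [inv_mul_le_iff₀ hw] at h3
  rw [Metric.mem_closedBall, dist_eq_norm]
  rw [Pi.sub_apply] at h3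
  linarith

/-- one weight -/
theorem spr_pi {b : E} {n : (κ → k) → E} (w : kˣ)
    (hadd : ∀ s t, n s * (n t)⁻¹ = n (s - t))
    (hb : ∀ s, b * n s = n (((w⁻¹ : kˣ) : k) • s) * b)
    (hprop : ∀ C : Set E, IsCompact C → ∃ r : ℝ, ∀ s, n s ∈ C → ‖s‖ ≤ r) :
    Spr (Measure.pi fun _ : κ => μ) b n (md w ^ Fintype.card κ) := by
  have h := spr_wt (μ := μ) (fun _ : κ => w) hadd hb hprop
  rwa [Finset.prod_const, Finset.card_univ] at h

end wt

/-! ### Heisenberg families -/

section heis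

variable {E : Type} [Group E] [TopologicalSpace E]
  {k : Type} [NontriviallyNormedField k] [ProperSpace k] {κ : Type} [Fintype κ]

omit [ProperSpace k] in
theorem pow_conj_h {b : E} {n : (κ → k) × k → E} {c : κ → k} {c' : k}
    (hb : ∀ v z, b * n (v, z) = n (fun i => c i * v i, c' * z) * b) (N : ℕ) (v : κ → k) (z : k) :
    b ^ N * n (v, z) = n (fun i => c i ^ N * v i, c' ^ N * z) * b ^ N := by
  induction N generalizing v z with
  | zero => simp
  | succ N ih =>
    rw [pow_succ, mul_assoc, hb, ← mul_assoc, ih, mul_assoc]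
    congr 3
    · funext i
      ring
    · ring

variable [MeasurableSpace k] [BorelSpace k] {μ : Measure k} [μ.IsAddHaarMeasure]

/-- **Heisenberg families are spread out.** -/
theorem spr_heis {b : E} {n : (κ → k) × k → E} (ws : κ → kˣ) (w' : kˣ)
    (om : (κ → k) → (κ → k) → k) (hom : ∀ v', Continuous fun v => om v v')
    (hdiff : ∀ v z v' z', n (v, z) * (n (v', z'))⁻¹ = n (v - v', z - z' - om v v'))
    (hb : ∀ v z, b * n (v, z) =
      n (fun i => (((ws i)⁻¹ : kˣ) : k) * v i, ((w'⁻¹ : kˣ) : k) * z) * b)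
    (hprop : ∀ C : Set E, IsCompact C → ∃ r : ℝ, ∀ s, n s ∈ C → ‖s‖ ≤ r) :
    Spr ((Measure.pi fun _ : κ => μ).prod μ) b n ((∏ i, md (ws i)) * md w') := by
  intro C hC
  obtain ⟨r, hr⟩ := hprop C hC
  obtain ⟨c, hc0, hc⟩ := measure_box (μ := μ) ws r
  obtain ⟨c', hc0', hc'⟩ := measure_ball μ w' r
  refine ⟨c' * c, ?_⟩
  rintro N ⟨v₀, z₀⟩
  obtain ⟨A, hA⟩ : ∃ A : Set (κ → k), A = Set.pi univ fun i =>
      Metric.closedBall (v₀ i) (r * ‖(ws i : k)‖ ^ N) := ⟨_, rfl⟩
  obtain ⟨S, hS⟩ : ∃ S : Set ((κ → k) × k), S = {p | p.1 ∈ A ∧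
      ‖p.2 - (z₀ + om p.1 v₀)‖ ≤ r * ‖(w' : k)‖ ^ N} := ⟨_, rfl⟩
  have hAc : IsClosed A := by
    rw [hA]
    exact isClosed_set_pi fun i _ => Metric.isClosed_closedBall
  have hSc : IsClosed S := by
    have h1 : IsClosed {p : (κ → k) × k | p.1 ∈ A} := hAc.preimage continuous_fst
    have h2 : Continuous fun p : (κ → k) × k => ‖p.2 - (z₀ + om p.1 v₀)‖ :=
      (continuous_snd.sub (continuous_const.add ((hom v₀).comp continuous_fst))).norm
    have h3 : IsClosed {p : (κ → k) × k | ‖p.2 - (z₀ + om p.1 v₀)‖ ≤ r * ‖(w' : k)‖ ^ N} :=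
      isClosed_le h2 continuous_const
    rw [hS]
    exact h1.inter h3
  have hsub : {s | b ^ N * n s * (b ^ N * n (v₀, z₀))⁻¹ ∈ C} ⊆ S := by
    rintro ⟨v, z⟩ hs
    have e1 : b ^ N * n (v, z) * (b ^ N * n (v₀, z₀))⁻¹ =
        n (fun i => (((ws i)⁻¹ : kˣ) : k) ^ N * (v - v₀) i,
          ((w'⁻¹ : kˣ) : k) ^ N * (z - z₀ - om v v₀)) := by
      have e2 : b ^ N * n (v, z) * (b ^ N * n (v₀, z₀))⁻¹ =
          b ^ N * (n (v, z) * (n (v₀, z₀))⁻¹) * (b ^ N)⁻¹ := by
        rw [mul_inv_rev]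
        simp only [mul_assoc]
      rw [e2, hdiff, pow_conj_h hb, mul_inv_cancel_right]
    have hs' : b ^ N * n (v, z) * (b ^ N * n (v₀, z₀))⁻¹ ∈ C := hs
    rw [e1] at hs'
    have h1 := hr _ hs'
    rw [Prod.norm_def, max_le_iff] at h1
    rw [hS]
    refine ⟨?_, ?_⟩
    · rw [hA]
      change v ∈ Set.pi univ _
      rw [Set.mem_univ_pi]
      intro i
      have h2 := (norm_le_pi_norm (fun i => (((ws i)⁻¹ : kˣ) : k) ^ N * (v - v₀) i) i).trans h1.1
      have h3 : ‖(((ws i)⁻¹ : kˣ) : k) ^ N * (v - v₀) i‖ ≤ r := h2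
      rw [norm_mul, norm_pow, Units.val_inv_eq_inv_val, norm_inv, inv_pow] at h3
      have hw : 0 < ‖((ws i : kˣ) : k)‖ ^ N := pow_pos (norm_pos_iff.2 (ws i).ne_zero) N
      rw [inv_mul_le_iff₀ hw] at h3
      rw [Metric.mem_closedBall, dist_eq_norm]
      rw [Pi.sub_apply] at h3
      linarith
    · have h3 : ‖((w'⁻¹ : kˣ) : k) ^ N * (z - z₀ - om v v₀)‖ ≤ r := h1.2
      rw [norm_mul, norm_pow, Units.val_inv_eq_inv_val, norm_inv, inv_pow] at h3
      have hw : 0 < ‖(w' : k)‖ ^ N := pow_pos (norm_pos_iff.2 w'.ne_zero) N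
      rw [inv_mul_le_iff₀ hw] at h3
      change ‖z - (z₀ + om v v₀)‖ ≤ _
      rw [← sub_sub]
      linarith
  refine (measure_mono hsub).trans ?_
  rw [Measure.prod_apply hSc.measurableSet]
  have hle : ∀ v, μ (Prod.mk v ⁻¹' S) ≤
      A.indicator (fun _ => ENNReal.ofReal (c' * md w' ^ N)) v := by
    intro v
    by_cases hv : v ∈ A
    · rw [Set.indicator_of_mem hv]
      refine (measure_mono ?_).trans (hc' (z₀ + om v v₀) N)
      intro z hz
      rw [Set.mem_preimage, hS] at hz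
      rw [Metric.mem_closedBall, dist_eq_norm]
      exact hz.2
    · rw [Set.indicator_of_notMem hv]
      have : Prod.mk v ⁻¹' S = ∅ := by
        ext z
        rw [Set.mem_preimage, hS]
        simp only [Set.mem_setOf_eq, hv, false_and, Set.mem_empty_iff_false]
      rw [this, measure_empty]
  calc ∫⁻ v, μ (Prod.mk v ⁻¹' S) ∂(Measure.pi fun _ : κ => μ)
      ≤ ∫⁻ v, A.indicator (fun _ => ENNReal.ofReal (c' * md w' ^ N)) v
          ∂(Measure.pi fun _ : κ => μ) := lintegral_mono hle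
    _ = ENNReal.ofReal (c' * md w' ^ N) * (Measure.pi fun _ : κ => μ) A := by
        rw [lintegral_indicator hAc.measurableSet, setLIntegral_const]
    _ ≤ ENNReal.ofReal (c' * md w' ^ N) * ENNReal.ofReal (c * (∏ i, md (ws i)) ^ N) := by
        gcongr
        rw [hA]
        exact hc v₀ N
    _ = _ := by
        rw [← ENNReal.ofReal_mul (mul_nonneg hc0' (pow_nonneg (md_nonneg _) _)), mul_pow]
        congr 1
        ring

end heis

/-! ### Unipotent families of matrices -/

section mat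

open Matrix

variable {k : Type} [NontriviallyNormedField k] {ι : Type} [Fintype ι] [DecidableEq ι]

/-- the family is proper if its matrices are `1 + L s` with `L` linear and injective -/
theorem prop_lin [CompleteSpace k] {P : Type} [NormedAddCommGroup P] [NormedSpace k P]
    [FiniteDimensional k P] {n : P → SpecialLinearGroup ι k} (L : P →ₗ[k] Matrix ι ι k)
    (hL : Function.Injective L) (hn : ∀ s, (n s).1 = 1 + L s)
    (C : Set (SpecialLinearGroup ι k)) (hC : IsCompact C) : ∃ r : ℝ, ∀ s, n s ∈ C → ‖s‖ ≤ r := by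
  obtain ⟨L', hL'⟩ : ∃ L' : P →ₗ[k] (ι → ι → k), ∀ s, L' s = fun i j => L s i j :=
    ⟨L, fun s => rfl⟩
  have hinj : Function.Injective L' := by
    intro s t hst
    refine hL ?_
    rw [hL', hL'] at hst
    exact hst
  have hker : LinearMap.ker L' = ⊥ := LinearMap.ker_eq_bot.2 hinj
  obtain ⟨K, hK0, hK⟩ := L'.exists_antilipschitzWith hker
  have hent : ∀ i j, Continuous fun g : SpecialLinearGroup ι k => g.1 i j := fun i j =>
    (continuous_apply_apply i j).comp continuous_subtype_val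
  have hcont : Continuous fun g : SpecialLinearGroup ι k =>
      (fun i j => g.1 i j - (1 : Matrix ι ι k) i j : ι → ι → k) :=
    continuous_pi fun i => continuous_pi fun j => (hent i j).sub continuous_const
  obtain ⟨r, hr⟩ := hC.exists_bound_of_continuousOn hcont.continuousOn
  refine ⟨K * r, fun s hs => ?_⟩
  have h1 := hr _ hs
  have h2 : (fun i j => (n s).1 i j - (1 : Matrix ι ι k) i j : ι → ι → k) = L' s := by
    rw [hL']
    funext i j
    rw [hn, Matrix.add_apply, add_sub_cancel_left]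
  rw [h2] at h1
  have h3 := hK.le_mul_dist s 0
  rw [dist_zero_right, map_zero, dist_zero_right] at h3
  exact h3.trans (mul_le_mul_of_nonneg_left h1 K.2)

/-- continuity of a linear family -/
theorem cont_lin [CompleteSpace k] {P : Type} [NormedAddCommGroup P] [NormedSpace k P]
    [FiniteDimensional k P] {n : P → SpecialLinearGroup ι k} (L : P →ₗ[k] Matrix ι ι k)
    (hn : ∀ s, (n s).1 = 1 + L s) : Continuous n := by
  have h1 : Continuous fun s => (fun i j => L s i j : ι → ι → k) := by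
    obtain ⟨L', hL'⟩ : ∃ L' : P →ₗ[k] (ι → ι → k), ∀ s, L' s = fun i j => L s i j :=
      ⟨L, fun s => rfl⟩
    have h2 : Continuous L' := L'.continuous_of_finiteDimensional
    refine h2.congr fun s => ?_
    rw [hL']
  refine continuous_induced_rng.2 ?_
  change Continuous fun s => (n s).1
  simp only [hn]
  refine continuous_const.add ?_
  exact h1

theorem sub_lin {P : Type} [AddCommGroup P] [Module k P] {n : P → SpecialLinearGroup ι k}
    (L : P →ₗ[k] Matrix ι ι k) (hn : ∀ s, (n s).1 = 1 + L s) (h2 : ∀ s t, L s * L t = 0)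
    (s t : P) : n s * (n t)⁻¹ = n (s - t) := by
  rw [mul_inv_eq_iff_eq_mul]
  apply Subtype.ext
  change (n s).1 = (n (s - t)).1 * (n t).1
  rw [hn, hn, hn, add_mul, mul_add, mul_add, h2, map_sub]
  simp

theorem exp_id {R : Type} [Ring R] (a a' z z' : R) : (1 + a + z) * (1 + a' + z') =
    1 + a' + z' + (a + a * a' + a * z') + (z + z * a' + z * z') := by noncomm_ring

/-- the Heisenberg law -/
theorem sub_heis {κ : Type} {n : (κ → k) × k → SpecialLinearGroup ι k}
    (A : (κ → k) →ₗ[k] Matrix ι ι k) (Z : Matrix ι ι k) (om : (κ → k) → (κ → k) → k)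
    (hn : ∀ v z, (n (v, z)).1 = 1 + A v + z • Z) (hAA : ∀ v v', A v * A v' = om v v' • Z)
    (hAZ : ∀ v, A v * Z = 0) (hZA : ∀ v, Z * A v = 0) (hZZ : Z * Z = 0)
    (hom : ∀ v v', om (v - v') v' = om v v') (v : κ → k) (z : k) (v' : κ → k) (z' : k) :
    n (v, z) * (n (v', z'))⁻¹ = n (v - v', z - z' - om v v') := by
  rw [mul_inv_eq_iff_eq_mul]
  apply Subtype.ext
  change (n (v, z)).1 = (n (v - v', z - z' - om v v')).1 * (n (v', z')).1
  have h1 : A (v - v') * A v' = om v v' • Z := by rw [hAA, hom]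
  have h2 : A (v - v') * (z' • Z) = 0 := by rw [Matrix.mul_smul, hAZ, smul_zero]
  have h3 : (z - z' - om v v') • Z * A v' = 0 := by rw [Matrix.smul_mul, hZA, smul_zero]
  have h4 : (z - z' - om v v') • Z * (z' • Z) = 0 := by
    rw [Matrix.smul_mul, Matrix.mul_smul, hZZ, smul_zero, smul_zero]
  rw [hn, hn, hn, exp_id, h1, h2, h3, h4, map_sub, sub_smul, sub_smul, add_zero, add_zero,
    add_zero]
  generalize A v = x
  generalize A v' = x'
  generalize z • Z = y
  generalize z' • Z = y'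
  generalize om v v' • Z = t
  abel

end mat

/-! ### Linear families -/

section lin

open Matrix

variable {k : Type} [NontriviallyNormedField k] {ι : Type} [Fintype ι] [DecidableEq ι]

/-- conjugation by a diagonal matrix -/
theorem diag_conj {d : ι → k} {X : Matrix ι ι k} {c : k} (h : ∀ i j, X i j ≠ 0 → d i = c * d j) :
    Matrix.diagonal d * X = c • (X * Matrix.diagonal d) := by
  ext i j
  rw [Matrix.diagonal_mul, Matrix.smul_apply, Matrix.mul_diagonal, smul_eq_mul]
  by_cases hX : X i j = 0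
  · rw [hX]; ring
  · rw [h i j hX]; ring

/-- the one-parameter group `1 + s X` -/
theorem one_par_sub {n : k → SpecialLinearGroup ι k} {X : Matrix ι ι k}
    (hn : ∀ s, (n s).1 = 1 + s • X) (h2 : X * X = 0) (s t : k) :
    n s * (n t)⁻¹ = n (s - t) := by
  rw [mul_inv_eq_iff_eq_mul]
  apply Subtype.ext
  change (n s).1 = (n (s - t)).1 * (n t).1
  have e : ((s - t) • X) * (t • X) = 0 := by
    rw [Matrix.smul_mul, Matrix.mul_smul, h2, smul_zero, smul_zero]
  rw [hn, hn, hn, add_mul, mul_add, mul_add, e, sub_smul]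
  simp

theorem one_par_conj {n : k → SpecialLinearGroup ι k} {X : Matrix ι ι k}
    (hn : ∀ s, (n s).1 = 1 + s • X) {b : SpecialLinearGroup ι k} {c : k}
    (hb : b.1 * X = c • (X * b.1)) (s : k) : b * n s = n (c * s) * b := by
  apply Subtype.ext
  change b.1 * (n s).1 = (n (c * s)).1 * b.1
  rw [hn, hn, mul_add, add_mul, mul_one, one_mul, Matrix.mul_smul, hb, smul_smul,
    Matrix.smul_mul, mul_comm c s]

theorem one_par_prop {n : k → SpecialLinearGroup ι k} {X : Matrix ι ι k} (hX : X ≠ 0)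
    (hn : ∀ s, (n s).1 = 1 + s • X) (C : Set (SpecialLinearGroup ι k)) (hC : IsCompact C) :
    ∃ r : ℝ, ∀ s, n s ∈ C → ‖s‖ ≤ r := by
  obtain ⟨i, j, hij⟩ : ∃ i j, X i j ≠ 0 := by
    by_contra hcon
    push Not at hcon
    exact hX (Matrix.ext hcon)
  have hent : Continuous fun g : SpecialLinearGroup ι k => g.1 i j :=
    (continuous_apply_apply i j).comp continuous_subtype_val
  have hc : Continuous fun g : SpecialLinearGroup ι k =>
      (g.1 i j - (1 : Matrix ι ι k) i j) * (X i j)⁻¹ :=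
    (hent.sub continuous_const).mul continuous_const
  obtain ⟨r, hr⟩ := hC.exists_bound_of_continuousOn hc.continuousOn
  refine ⟨r, fun s hs => ?_⟩
  have h1 := hr _ hs
  have h2 : ((n s).1 i j - (1 : Matrix ι ι k) i j) * (X i j)⁻¹ = s := by
    rw [hn, Matrix.add_apply, Matrix.smul_apply, smul_eq_mul, add_sub_cancel_left,
      mul_assoc, mul_inv_cancel₀ hij, mul_one]
  rwa [h2] at h1

theorem one_par_cont {n : k → SpecialLinearGroup ι k} {X : Matrix ι ι k}
    (hn : ∀ s, (n s).1 = 1 + s • X) : Continuous n := by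
  refine continuous_induced_rng.2 ?_
  change Continuous fun s => (n s).1
  simp only [hn]
  exact continuous_const.add (continuous_id.smul continuous_const)

variable [ProperSpace k] [MeasurableSpace k] [BorelSpace k] {μ : Measure k} [μ.IsAddHaarMeasure]

/-- **one-parameter groups `1 + s X`** -/
theorem spr_one {n : k → SpecialLinearGroup ι k} {X : Matrix ι ι k} (hX : X ≠ 0)
    (hn : ∀ s, (n s).1 = 1 + s • X) (h2 : X * X = 0) {b : SpecialLinearGroup ι k} {w : kˣ}
    (hb : b.1 * X = ((w⁻¹ : kˣ) : k) • (X * b.1)) : Spr μ b n (md w) :=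
  spr_of w (one_par_sub hn h2) (one_par_conj hn hb) (one_par_prop hX hn)

/-- **abelian families `1 + L s`** -/
theorem spr_lin {κ : Type} [Fintype κ] {n : (κ → k) → SpecialLinearGroup ι k}
    (L : (κ → k) →ₗ[k] Matrix ι ι k) (hL : Function.Injective L)
    (hn : ∀ s, (n s).1 = 1 + L s) (h2 : ∀ s t, L s * L t = 0) {b : SpecialLinearGroup ι k}
    (ws : κ → kˣ) (hb : ∀ s, b.1 * L s = L (fun i => (((ws i)⁻¹ : kˣ) : k) * s i) * b.1) :
    Spr (Measure.pi fun _ : κ => μ) b n (∏ i, md (ws i)) := by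
  refine spr_wt ws (sub_lin L hn h2) (fun s => ?_) (prop_lin L hL hn)
  apply Subtype.ext
  change b.1 * (n s).1 = (n _).1 * b.1
  rw [hn, hn, mul_add, add_mul, mul_one, one_mul, hb]

/-- **Heisenberg families `1 + A v + z Z`** -/
theorem spr_heis_mat {κ : Type} [Fintype κ] {n : (κ → k) × k → SpecialLinearGroup ι k}
    (A : (κ → k) →ₗ[k] Matrix ι ι k) (Z : Matrix ι ι k) (om : (κ → k) → (κ → k) → k)
    (hc : ∀ v', Continuous fun v => om v v')
    (hinj : ∀ (v : κ → k) (z : k), A v + z • Z = 0 → v = 0 ∧ z = 0)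
    (hn : ∀ v z, (n (v, z)).1 = 1 + A v + z • Z) (hAA : ∀ v v', A v * A v' = om v v' • Z)
    (hAZ : ∀ v, A v * Z = 0) (hZA : ∀ v, Z * A v = 0) (hZZ : Z * Z = 0)
    (hom : ∀ v v', om (v - v') v' = om v v') {b : SpecialLinearGroup ι k} (ws : κ → kˣ) (w' : kˣ)
    (hb : ∀ v, b.1 * A v = A (fun i => (((ws i)⁻¹ : kˣ) : k) * v i) * b.1)
    (hb' : b.1 * Z = ((w'⁻¹ : kˣ) : k) • (Z * b.1)) :
    Spr ((Measure.pi fun _ : κ => μ).prod μ) b n ((∏ i, md (ws i)) * md w') := by
  refine spr_heis ws w' om hc (sub_heis A Z om hn hAA hAZ hZA hZZ hom) (fun v z => ?_) ?_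
  · apply Subtype.ext
    change b.1 * (n (v, z)).1 = (n _).1 * b.1
    rw [hn, hn, mul_add, mul_add, add_mul, add_mul, mul_one, one_mul, hb, Matrix.mul_smul, hb',
      smul_smul, Matrix.smul_mul, mul_comm z]
  · refine prop_lin (A.comp (LinearMap.fst k (κ → k) k) +
      (LinearMap.toSpanSingleton k (Matrix ι ι k) Z).comp (LinearMap.snd k (κ → k) k)) ?_ ?_
    · rw [← LinearMap.ker_eq_bot, LinearMap.ker_eq_bot']
      rintro ⟨v, z⟩ hvz
      have h1 : A v + z • Z = 0 := by simpa using hvz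
      obtain ⟨h2, h3⟩ := hinj v z h1
      rw [h2, h3]
      rfl
    · rintro ⟨v, z⟩
      rw [hn]
      simp [add_assoc]

end lin

end Vale.Agent.P092.H71.P
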