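import Vale.Agent.P092.H71.P.Spr
import Mathlib.MeasureTheory.Measure.Haar.MulEquivHaarChar

/-!
P092 (helper71), TEAM P, stage 3 (all forms), block [P3-ORB], part 1: `H368.SN.Spr` for general
families: any chart `n : P → E` of a unipotent group with a measure preserving law, on which `b`
acts by an expanding map; in particular the families of matrices `1 + X s` with `X` additive and
`X s * X t = 0`, for every injective matrix realisation `j : E →* Matrix m m k`. The rate is the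
Haar character of the dilation. Every local field, every characteristic.
-/

set_option linter.all false

open MeasureTheory Filter Topology MeasureTheory.Measure Set
open scoped NNReal Pointwise ENNReal

namespace Vale.Agent.P092.H71.P

open Vale.Agent.P092.H368.SN

/-! ### General charts -/

section gen

variable {E P : Type} [Group E] [TopologicalSpace E] [NormedAddCommGroup P] [MeasurableSpace P]
  [BorelSpace P] {μ : Measure P} {b : E} {n : P → E} {ρ : ℝ}

theorem pow_conj_gen {δ : P → P} (hb : ∀ s, b * n s = n (δ s) * b) (N : ℕ) (s : P) :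
    b ^ N * n s = n (δ^[N] s) * b ^ N := by
  induction N generalizing s with
  | zero => simp
  | succ N ih =>
    rw [pow_succ, mul_assoc, hb, ← mul_assoc, ih, mul_assoc, Function.iterate_succ_apply]

/-- **General families are spread out.** -/
theorem spr_gen {δ : P → P} (hδ : Continuous δ) {τ : P → P → P}
    (hτ : ∀ t, MeasurePreserving (τ t) μ μ)
    (hρ : ∀ r : ℝ, ∃ c : ℝ, ∀ N : ℕ, μ {s | ‖δ^[N] s‖ ≤ r} ≤ ENNReal.ofReal (c * ρ ^ N))
    (hdiff : ∀ s t, n s * (n t)⁻¹ = n (τ t s)) (hb : ∀ s, b * n s = n (δ s) * b)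
    (hprop : ∀ C : Set E, IsCompact C → ∃ r : ℝ, ∀ s, n s ∈ C → ‖s‖ ≤ r) : Spr μ b n ρ := by
  intro C hC
  obtain ⟨r, hr⟩ := hprop C hC
  obtain ⟨c, hc⟩ := hρ r
  refine ⟨c, fun N s₀ => ?_⟩
  have hcl : MeasurableSet {s : P | ‖δ^[N] s‖ ≤ r} :=
    (isClosed_le (hδ.iterate N).norm continuous_const).measurableSet
  refine le_trans (le_trans (measure_mono ?_)
    (le_of_eq ((hτ s₀).measure_preimage hcl.nullMeasurableSet))) (hc N)
  intro s hs
  refine hr _ ?_
  have e1 : b ^ N * n s * (b ^ N * n s₀)⁻¹ = n (δ^[N] (τ s₀ s)) := by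
    have e2 : b ^ N * n s * (b ^ N * n s₀)⁻¹ = b ^ N * (n s * (n s₀)⁻¹) * (b ^ N)⁻¹ := by
      rw [mul_inv_rev]
      simp only [mul_assoc]
    rw [e2, hdiff, pow_conj_gen hb, mul_inv_cancel_right]
  have hs' : b ^ N * n s * (b ^ N * n s₀)⁻¹ ∈ C := hs
  rwa [e1] at hs'

/-- an abelian chart -/
theorem spr_ab [μ.IsAddRightInvariant] {δ : P → P} (hδ : Continuous δ)
    (hρ : ∀ r : ℝ, ∃ c : ℝ, ∀ N : ℕ, μ {s | ‖δ^[N] s‖ ≤ r} ≤ ENNReal.ofReal (c * ρ ^ N))
    (hdiff : ∀ s t, n s * (n t)⁻¹ = n (s - t)) (hb : ∀ s, b * n s = n (δ s) * b)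
    (hprop : ∀ C : Set E, IsCompact C → ∃ r : ℝ, ∀ s, n s ∈ C → ‖s‖ ≤ r) : Spr μ b n ρ :=
  spr_gen hδ (τ := fun t s => s - t) (fun t => measurePreserving_sub_right μ t) hρ hdiff hb hprop

end gen

/-! ### The rate of an expanding automorphism -/

section rate

variable {P : Type} [NormedAddCommGroup P] [ProperSpace P] [MeasurableSpace P] [BorelSpace P]
  {μ : Measure P} [μ.IsAddHaarMeasure] [μ.Regular]

/-- the rate of an automorphism: the inverse of its Haar character -/
noncomputable def rt (φ : P ≃ₜ+ P) : ℝ := ((addEquivAddHaarChar φ : ℝ≥0) : ℝ)⁻¹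

theorem rt_pos (φ : P ≃ₜ+ P) : 0 < rt φ :=
  inv_pos.2 (NNReal.coe_pos.2 (addEquivAddHaarChar_pos φ))

theorem meas_iter (φ : P ≃ₜ+ P) (X : Set P) (N : ℕ) :
    μ (φ^[N] ⁻¹' X) = ENNReal.ofReal (rt φ ^ N) * μ X := by
  induction N with
  | zero => simp
  | succ N ih =>
    have h1 : (φ^[N + 1] : P → P) ⁻¹' X = φ ⁻¹' ((φ^[N] : P → P) ⁻¹' X) := by
      rw [Function.iterate_succ, Set.preimage_comp]
    have h2 := addEquivAddHaarChar_smul_preimage μ (X := (φ^[N] : P → P) ⁻¹' X) φ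
    rw [h1]
    have hpos : 0 < addEquivAddHaarChar φ := addEquivAddHaarChar_pos φ
    have h3 : μ (φ ⁻¹' ((φ^[N] : P → P) ⁻¹' X)) =
        ENNReal.ofReal (rt φ) * μ ((φ^[N] : P → P) ⁻¹' X) := by
      rw [← h2, ENNReal.smul_def, smul_eq_mul, ← mul_assoc]
      have h4 : ENNReal.ofReal (rt φ) * ((addEquivAddHaarChar φ : ℝ≥0) : ℝ≥0∞) = 1 := by
        rw [rt, ← NNReal.coe_inv, ENNReal.ofReal_coe_nnreal, ← ENNReal.coe_mul,
          inv_mul_cancel₀ hpos.ne', ENNReal.coe_one]
      rw [h4, one_mul]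
    rw [h3, ih, ← mul_assoc, ← ENNReal.ofReal_mul (rt_pos φ).le, pow_succ, mul_comm (rt φ)]

theorem rt_meas (φ : P ≃ₜ+ P) (r : ℝ) : ∃ c : ℝ, ∀ N : ℕ,
    μ {s | ‖φ^[N] s‖ ≤ r} ≤ ENNReal.ofReal (c * rt φ ^ N) := by
  have hfin : μ (Metric.closedBall (0 : P) r) < ⊤ := (isCompact_closedBall 0 r).measure_lt_top
  refine ⟨(μ (Metric.closedBall (0 : P) r)).toReal, fun N => ?_⟩
  have h1 : {s : P | ‖φ^[N] s‖ ≤ r} = (φ^[N] : P → P) ⁻¹' Metric.closedBall (0 : P) r := by
    ext s
    simp [Metric.mem_closedBall, dist_zero_right]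
  rw [h1, meas_iter, mul_comm, ENNReal.ofReal_mul ENNReal.toReal_nonneg,
    ENNReal.ofReal_toReal hfin.ne]

/-- expanding automorphisms have rate less than one -/
theorem rt_lt_one (hna : (𝓝[≠] (0 : P)).NeBot) (φ : P ≃ₜ+ P) {L : ℝ} (hL : 1 < L)
    (hφ : ∀ s, L * ‖s‖ ≤ ‖φ s‖) : rt φ < 1 := by
  obtain ⟨μ, hμ⟩ : ∃ μ : Measure P, μ = MeasureTheory.Measure.addHaar := ⟨_, rfl⟩
  haveI : μ.IsAddHaarMeasure := by rw [hμ]; infer_instance
  haveI : μ.Regular := by rw [hμ]; infer_instance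
  by_contra hcon
  rw [not_lt] at hcon
  have h1 : ∀ N : ℕ, ∀ s, L ^ N * ‖s‖ ≤ ‖φ^[N] s‖ := by
    intro N
    induction N with
    | zero => intro s; simp
    | succ N ih =>
      intro s
      rw [Function.iterate_succ_apply, pow_succ, mul_assoc]
      exact (mul_le_mul_of_nonneg_left (hφ s) (by positivity)).trans (ih (φ s))
  have h2 : ∀ N : ℕ, μ (Metric.closedBall (0 : P) 1) ≤
      μ (Metric.closedBall (0 : P) ((L⁻¹) ^ N)) := by
    intro N
    have h3 := meas_iter (μ := μ) φ (Metric.closedBall (0 : P) 1) N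
    have h4 : (φ^[N] : P → P) ⁻¹' Metric.closedBall (0 : P) 1 ⊆
        Metric.closedBall (0 : P) ((L⁻¹) ^ N) := by
      intro s hs
      rw [Set.mem_preimage, Metric.mem_closedBall, dist_zero_right] at hs
      rw [Metric.mem_closedBall, dist_zero_right, inv_pow]
      have h5 := (h1 N s).trans hs
      have h6 : 0 < L ^ N := by positivity
      rw [← one_div, le_div_iff₀ h6, mul_comm]
      exact h5
    calc μ (Metric.closedBall (0 : P) 1) = 1 * μ (Metric.closedBall (0 : P) 1) := (one_mul _).symm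
      _ ≤ ENNReal.ofReal (rt φ ^ N) * μ (Metric.closedBall (0 : P) 1) := by
          gcongr
          rw [← ENNReal.ofReal_one]
          exact ENNReal.ofReal_le_ofReal (one_le_pow₀ hcon)
      _ = μ ((φ^[N] : P → P) ⁻¹' Metric.closedBall (0 : P) 1) := h3.symm
      _ ≤ _ := measure_mono h4
  have hpos : 0 < μ (Metric.closedBall (0 : P) 1) :=
    (Metric.measure_ball_pos μ 0 one_pos).trans_le (measure_mono Metric.ball_subset_closedBall)
  have h0 : μ {(0 : P)} < μ (Metric.closedBall (0 : P) 1) := by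
    rw [measure_singleton]
    exact hpos
  obtain ⟨U, hU1, hU2, hU3⟩ := Set.exists_isOpen_lt_of_lt {(0 : P)} _ h0
  obtain ⟨r, hr, hrU⟩ := Metric.isOpen_iff.1 hU2 0 (hU1 rfl)
  have hLi : Tendsto (fun N : ℕ => (L⁻¹) ^ N) atTop (𝓝 0) :=
    tendsto_pow_atTop_nhds_zero_of_lt_one (by positivity) (inv_lt_one_of_one_lt₀ hL)
  obtain ⟨N, hN⟩ := (hLi.eventually_lt_const hr).exists
  refine absurd (h2 N) (not_le.2 (lt_of_le_of_lt (measure_mono ?_) hU3))
  exact (Metric.closedBall_subset_ball hN).trans hrU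

end rate

/-! ### Heisenberg charts -/

section heisG

variable {E V Z : Type} [Group E] [TopologicalSpace E]
  [NormedAddCommGroup V] [ProperSpace V] [MeasurableSpace V] [BorelSpace V]
  [NormedAddCommGroup Z] [ProperSpace Z] [MeasurableSpace Z] [BorelSpace Z]
  {μV : Measure V} [μV.IsAddHaarMeasure] [μV.Regular]
  {μZ : Measure Z} [μZ.IsAddHaarMeasure] [μZ.Regular] {b : E} {n : V × Z → E}

omit [ProperSpace V] [ProperSpace Z] in
theorem iter_prod (f : V → V) (g : Z → Z) (N : ℕ) (p : V × Z) :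
    (fun p : V × Z => (f p.1, g p.2))^[N] p = (f^[N] p.1, g^[N] p.2) := by
  induction N generalizing p with
  | zero => rfl
  | succ N ih => rw [Function.iterate_succ_apply, ih]; rfl

/-- **Heisenberg charts over any two normed groups are spread out.** -/
theorem spr_heisG (δV : V ≃ₜ+ V) (δZ : Z ≃ₜ+ Z) {ω : V → V → Z}
    (hω : ∀ v', Continuous fun v => ω v v')
    (hdiff : ∀ v z v' z', n (v, z) * (n (v', z'))⁻¹ = n (v - v', z - z' - ω v v'))
    (hb : ∀ v z, b * n (v, z) = n (δV v, δZ z) * b)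
    (hprop : ∀ C : Set E, IsCompact C → ∃ r : ℝ, ∀ s, n s ∈ C → ‖s‖ ≤ r) :
    Spr (μV.prod μZ) b n (rt δV * rt δZ) := by
  haveI : SecondCountableTopology V := inferInstance
  haveI : SecondCountableTopology Z := inferInstance
  refine spr_gen (P := V × Z) (δ := fun p => (δV p.1, δZ p.2))
    ((δV.continuous.comp continuous_fst).prodMk (δZ.continuous.comp continuous_snd))
    (τ := fun t s => (s.1 - t.1, s.2 - t.2 - ω s.1 t.1)) (fun t => ?_) (fun r => ?_)
    (fun s t => hdiff s.1 s.2 t.1 t.2) (fun s => hb s.1 s.2) hprop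
  · refine MeasurePreserving.skew_product (f := fun v => v - t.1)
      (g := fun v z => z - t.2 - ω v t.1) (measurePreserving_sub_right μV t.1) ?_ ?_
    · exact (((continuous_snd.sub continuous_const).sub
        ((hω t.1).comp continuous_fst)).measurable)
    · refine Filter.Eventually.of_forall fun v => ?_
      have h1 : (fun z : Z => z - t.2 - ω v t.1) = fun z => z - (t.2 + ω v t.1) := by
        funext z
        rw [sub_sub]
      change Measure.map (fun z : Z => z - t.2 - ω v t.1) μZ = μZ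
      rw [h1]
      exact (measurePreserving_sub_right μZ _).map_eq
  · obtain ⟨c, hc⟩ := rt_meas (μ := μV) δV r
    obtain ⟨c', hc'⟩ := rt_meas (μ := μZ) δZ r
    refine ⟨max c 0 * max c' 0, fun N => ?_⟩
    have hsub : {s : V × Z | ‖(fun p : V × Z => (δV p.1, δZ p.2))^[N] s‖ ≤ r} ⊆
        {v | ‖δV^[N] v‖ ≤ r} ×ˢ {z | ‖δZ^[N] z‖ ≤ r} := by
      intro s hs
      have h1 : ‖(fun p : V × Z => (δV p.1, δZ p.2))^[N] s‖ ≤ r := hs
      rw [iter_prod, Prod.norm_def, max_le_iff] at h1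
      exact ⟨h1.1, h1.2⟩
    refine (measure_mono hsub).trans ?_
    rw [Measure.prod_prod]
    have hp : 0 ≤ rt δV ^ N := pow_nonneg (rt_pos δV).le _
    have hp' : 0 ≤ rt δZ ^ N := pow_nonneg (rt_pos δZ).le _
    calc μV {v | ‖δV^[N] v‖ ≤ r} * μZ {z | ‖δZ^[N] z‖ ≤ r}
        ≤ ENNReal.ofReal (max c 0 * rt δV ^ N) * ENNReal.ofReal (max c' 0 * rt δZ ^ N) := by
          gcongr
          · exact (hc N).trans (ENNReal.ofReal_le_ofReal
              (mul_le_mul_of_nonneg_right (le_max_left _ _) hp))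
          · exact (hc' N).trans (ENNReal.ofReal_le_ofReal
              (mul_le_mul_of_nonneg_right (le_max_left _ _) hp'))
      _ = _ := by
          rw [← ENNReal.ofReal_mul (by positivity), mul_pow]
          congr 1
          ring

end heisG

/-! ### Matrix realisations -/

section mat

open Matrix

variable {k : Type} [NontriviallyNormedField k] {m : Type} [Fintype m] [DecidableEq m]
  {E P : Type} [Group E] [TopologicalSpace E] [NormedAddCommGroup P] {j : E →* Matrix m m k}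
  {n : P → E} {X : P →+ Matrix m m k}

omit [TopologicalSpace E] in
theorem sub_add' (hj : Function.Injective j) (hn : ∀ s, j (n s) = 1 + X s)
    (h2 : ∀ s t, X s * X t = 0) (s t : P) : n s * (n t)⁻¹ = n (s - t) := by
  rw [mul_inv_eq_iff_eq_mul]
  refine hj ?_
  rw [map_mul, hn, hn, hn, add_mul, mul_add, mul_add, h2, map_sub]
  simp

omit [TopologicalSpace E] in
theorem conj_add' (hj : Function.Injective j) (hn : ∀ s, j (n s) = 1 + X s) {b : E} {δ : P → P}
    (hb : ∀ s, j b * X s = X (δ s) * j b) (s : P) : b * n s = n (δ s) * b := by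
  refine hj ?_
  rw [map_mul, map_mul, hn, hn, mul_add, add_mul, mul_one, one_mul, hb]

theorem prop_add' (hjc : Continuous j) (hn : ∀ s, j (n s) = 1 + X s)
    (hX : ∃ c : ℝ, ∀ s, ∃ i i', ‖s‖ ≤ c * ‖X s i i'‖) (C : Set E) (hC : IsCompact C) :
    ∃ r : ℝ, ∀ s, n s ∈ C → ‖s‖ ≤ r := by
  obtain ⟨c, hc⟩ := hX
  have hcont : Continuous fun g : E => (fun i i' => j g i i' - (1 : Matrix m m k) i i' :
      m → m → k) :=
    continuous_pi fun i => continuous_pi fun i' =>
      ((continuous_apply_apply i i').comp hjc).sub continuous_const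
  obtain ⟨r, hr⟩ := hC.exists_bound_of_continuousOn hcont.continuousOn
  refine ⟨|c| * r, fun s hs => ?_⟩
  obtain ⟨i, i', hi⟩ := hc s
  have h1 := hr _ hs
  have h2 : ‖X s i i'‖ ≤ r := by
    have h3 : X s i i' = (fun i i' => j (n s) i i' - (1 : Matrix m m k) i i' : m → m → k) i i' := by
      change X s i i' = j (n s) i i' - (1 : Matrix m m k) i i'
      rw [hn, Matrix.add_apply, add_sub_cancel_left]
    rw [h3]
    exact (norm_le_pi_norm _ i').trans ((norm_le_pi_norm _ i).trans h1)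
  calc ‖s‖ ≤ c * ‖X s i i'‖ := hi
    _ ≤ |c| * ‖X s i i'‖ := mul_le_mul_of_nonneg_right (le_abs_self c) (norm_nonneg _)
    _ ≤ |c| * r := mul_le_mul_of_nonneg_left h2 (abs_nonneg c)

variable [ProperSpace P] [MeasurableSpace P] [BorelSpace P] {μ : Measure P} [μ.IsAddHaarMeasure]
  [μ.Regular]

/-- **Root groups `1 + X s` in any matrix group.** -/
theorem spr_mat (hj : Function.Injective j) (hjc : Continuous j)
    (hn : ∀ s, j (n s) = 1 + X s) (h2 : ∀ s t, X s * X t = 0)
    (hX : ∃ c : ℝ, ∀ s, ∃ i i', ‖s‖ ≤ c * ‖X s i i'‖) {b : E} (φ : P ≃ₜ+ P)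
    (hb : ∀ s, j b * X s = X (φ s) * j b) : Spr μ b n (rt φ) :=
  spr_ab φ.continuous (rt_meas φ) (sub_add' hj hn h2) (conj_add' hj hn hb)
    (prop_add' hjc hn hX)

end mat

end Vale.Agent.P092.H71.P
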