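import Vale.Agent.P092.H71.P.SprG
import Vale.Agent.P092.H368.SN.OrbP

/-!
P092 (helper71), TEAM P, stages 2 and 3, block [ORB], part 2: dilations of the parameter groups
(`k`, `k`-vector spaces, the skew elements), and the orbit property on the row model for the root
groups of any matrix group `G₀`, pushed forward to any source group `E` by a proper homomorphism.
-/

set_option linter.all false

open scoped InnerProductSpace ENNReal NNReal Pointwise
open Set Filter Topology MeasureTheory ContinuousLinearMap MeasureTheory.Measure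

namespace Vale.Agent.P092.H71.P

open Vale.Agent.P092.H368.SN

/-! ### Dilations -/

section dil

variable {k : Type} [NontriviallyNormedField k]

/-- multiplication by a unit on a vector space -/
def dilV {P : Type} [NormedAddCommGroup P] [NormedSpace k P] (c : kˣ) : P ≃ₜ+ P where
  toFun x := (c : k) • x
  invFun x := ((c⁻¹ : kˣ) : k) • x
  left_inv x := by
    change ((c⁻¹ : kˣ) : k) • ((c : k) • x) = x
    rw [smul_smul, ← Units.val_mul, inv_mul_cancel, Units.val_one, one_smul]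
  right_inv x := by
    change (c : k) • (((c⁻¹ : kˣ) : k) • x) = x
    rw [smul_smul, ← Units.val_mul, mul_inv_cancel, Units.val_one, one_smul]
  map_add' x y := smul_add _ _ _
  continuous_toFun := continuous_const_smul _
  continuous_invFun := continuous_const_smul _

theorem dilV_apply {P : Type} [NormedAddCommGroup P] [NormedSpace k P] (c : kˣ) (x : P) :
    dilV c x = (c : k) • x := rfl

/-- multiplication by a unit on an additive subgroup -/
def dilS (S : AddSubgroup k) (c : kˣ) (h : ∀ x ∈ S, (c : k) * x ∈ S)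
    (h' : ∀ x ∈ S, ((c⁻¹ : kˣ) : k) * x ∈ S) : S ≃ₜ+ S where
  toFun x := ⟨(c : k) * x, h x x.2⟩
  invFun x := ⟨((c⁻¹ : kˣ) : k) * x, h' x x.2⟩
  left_inv x := by
    apply Subtype.ext
    change ((c⁻¹ : kˣ) : k) * ((c : k) * x) = x
    rw [← mul_assoc, ← Units.val_mul, inv_mul_cancel, Units.val_one, one_mul]
  right_inv x := by
    apply Subtype.ext
    change (c : k) * (((c⁻¹ : kˣ) : k) * x) = x
    rw [← mul_assoc, ← Units.val_mul, mul_inv_cancel, Units.val_one, one_mul]
  map_add' x y := Subtype.ext (mul_add _ _ _)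
  continuous_toFun := (continuous_const.mul continuous_subtype_val).subtype_mk _
  continuous_invFun := (continuous_const.mul continuous_subtype_val).subtype_mk _

theorem dilS_apply (S : AddSubgroup k) (c : kˣ) (h : ∀ x ∈ S, (c : k) * x ∈ S)
    (h' : ∀ x ∈ S, ((c⁻¹ : kˣ) : k) * x ∈ S) (x : S) : (dilS S c h h' x : k) = (c : k) * x := rfl

/-- an expanding automorphism of a nontrivial group: the group is not discrete -/
theorem ne_bot_of_exp {P : Type} [NormedAddCommGroup P] (φ : P ≃ₜ+ P) {L : ℝ} (hL : 1 < L)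
    (hφ : ∀ s, L * ‖s‖ ≤ ‖φ s‖) (hne : ∃ s : P, s ≠ 0) : (𝓝[≠] (0 : P)).NeBot := by
  obtain ⟨s, hs⟩ := hne
  have h1 : ∀ N : ℕ, φ.symm^[N] s ≠ 0 := by
    intro N
    induction N with
    | zero => exact hs
    | succ N ih =>
      rw [Function.iterate_succ_apply']
      intro h0
      exact ih (φ.symm.injective (h0.trans (map_zero φ.symm).symm))
  have h2 : ∀ N : ℕ, ‖φ.symm^[N] s‖ ≤ (L⁻¹) ^ N * ‖s‖ := by
    intro N
    induction N with
    | zero => simp
    | succ N ih =>
      rw [Function.iterate_succ_apply']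
      have h3 := hφ (φ.symm (φ.symm^[N] s))
      rw [ContinuousAddEquiv.apply_symm_apply] at h3
      have h4 : ‖φ.symm (φ.symm^[N] s)‖ ≤ L⁻¹ * ‖φ.symm^[N] s‖ := by
        rw [← div_eq_inv_mul, le_div_iff₀ (by linarith), mul_comm]
        exact h3
      refine h4.trans ?_
      rw [pow_succ', mul_assoc]
      exact mul_le_mul_of_nonneg_left ih (by positivity)
  have h3 : Tendsto (fun N : ℕ => φ.symm^[N] s) atTop (𝓝[≠] (0 : P)) := by
    rw [tendsto_nhdsWithin_iff]
    refine ⟨?_, Eventually.of_forall fun N => h1 N⟩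
    refine squeeze_zero_norm h2 ?_
    have h5 : Tendsto (fun N : ℕ => (L⁻¹) ^ N) atTop (𝓝 0) :=
      tendsto_pow_atTop_nhds_zero_of_lt_one (by positivity) (inv_lt_one_of_one_lt₀ hL)
    simpa using h5.mul_const ‖s‖
  exact h3.neBot

end dil

/-! ### Properness of quotients of closed matrix groups -/

/-- the preimages of compact sets are relatively compact -/
def PrpG {G₀ E : Type} [Group G₀] [TopologicalSpace G₀] [Group E] [TopologicalSpace E]
    (ι : G₀ →* E) : Prop :=
  ∀ C : Set E, IsCompact C → ∃ C' : Set G₀, IsCompact C' ∧ ι ⁻¹' C ⊆ C'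

theorem prpG_id {G₀ : Type} [Group G₀] [TopologicalSpace G₀] : PrpG (MonoidHom.id G₀) :=
  fun C hC => ⟨C, hC, fun x hx => hx⟩

/-! ### The orbit property -/

section orb

open Vale.Agent.P092.SR Vale.Agent.P092.H160 Vale.Agent.P092.H368
open Vale.Agent.P092.RC (Cm KK pic XX Om lam₁ lam₂)
open Vale.Agent.P092.H790.CTA (ORBG)

variable {G₀ : Type} [Group G₀] [TopologicalSpace G₀]
  {E : Type} [Group E] [TopologicalSpace E] [IsTopologicalGroup E] [LocallyCompactSpace E]
  [SecondCountableTopology E] [T2Space E] [MeasurableSpace E] [BorelSpace E]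
  {ι : G₀ →* E} (hιc : Continuous ι) (hι : PrpG ι)
  {Γ : Subgroup E} [DiscreteTopology Γ] [MeasurableSpace (E ⧸ Γ)] [BorelSpace (E ⧸ Γ)]
  {ν : Measure (E ⧸ Γ)} [IsProbabilityMeasure ν] [Countable Γ]
  (hν : ∀ g : E, ν.map (fun x => g • x) = ν)
  {Λ : Type} [Group Λ] {α : Γ →* (Ell2 Λ →L[ℂ] Ell2 Λ)} (hα : Frame α)
  {P : Type} [NormedAddCommGroup P] [ProperSpace P] [MeasurableSpace P] [BorelSpace P]
  {μ : Measure P} [μ.IsAddHaarMeasure] [μ.Regular] {b : G₀} {n : P → G₀} (hn : Continuous n)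
  {φ : P ≃ₜ+ P} {L : ℝ} (hL : 1 < L) (hφ : ∀ s, L * ‖s‖ ≤ ‖φ s‖) (hne : ∃ s : P, s ≠ 0)
  (hs : Spr μ b n (rt φ))

include hL hφ hne in
theorem rt_lt : rt φ < 1 := rt_lt_one (ne_bot_of_exp φ hL hφ hne) φ hL hφ

include hιc hι hn hL hφ hne hs

/-- **(ORB), leg 1, root group of a matrix group, any source group.** -/
theorem orbG₁ : ∃ ρ : ℝ, 0 < ρ ∧ ρ < 1 ∧ ORBG μ (ι b) (fun s => ι (n s)) ρ (pic hν hα)
    (lam₁ ν α) (XX ν Λ ∪ Set.range (lam₂ ν α)) (Om ν Λ) :=
  ⟨rt φ, rt_pos φ, rt_lt hL hφ hne, orbE₁ hν hα (hιc.comp hn) (spr_push hι hs)⟩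

/-- **(ORB), leg 2, root group of a matrix group, any source group.** -/
theorem orbG₂ : ∃ ρ : ℝ, 0 < ρ ∧ ρ < 1 ∧ ORBG μ (ι b) (fun s => ι (n s)) ρ (pic hν hα)
    (lam₂ ν α) (XX ν Λ ∪ Set.range (lam₁ ν α)) (Om ν Λ) :=
  ⟨rt φ, rt_pos φ, rt_lt hL hφ hne, orbE₂ hν hα (hιc.comp hn) (spr_push hι hs)⟩

end orb

end Vale.Agent.P092.H71.P
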