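import Vale.Agent.P092.H71.P.SprH

/-!
P092 (helper71), TEAM P, stages 2 and 3, block [ORB], part 3: the two kinds of root groups of a
classical group (any form): short ones `1 + s Y₁ + τ(s) Y₂` over `k` (`τ` additive, e.g.
`τ s = -ε σ(s)`), long ones `1 + s Y` with `s` in an additive subgroup `S` of `k` (skew elements).
-/

set_option linter.all false

open scoped InnerProductSpace ENNReal NNReal Pointwise
open Set Filter Topology MeasureTheory ContinuousLinearMap MeasureTheory.Measure Matrix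

namespace Vale.Agent.P092.H71.P

open Vale.Agent.P092.H368.SN

section two

variable {k : Type} [NontriviallyNormedField k] {m : Type} [Fintype m] [DecidableEq m]

/-- `s ↦ s Y₁ + τ(s) Y₂` -/
def XX2 (τ : k →+ k) (Y₁ Y₂ : Matrix m m k) : k →+ Matrix m m k where
  toFun s := s • Y₁ + τ s • Y₂
  map_zero' := by simp
  map_add' s t := by
    rw [map_add, add_smul, add_smul]
    abel

omit [Fintype m] [DecidableEq m] in
theorem XX2_apply (τ : k →+ k) (Y₁ Y₂ : Matrix m m k) (s : k) :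
    XX2 τ Y₁ Y₂ s = s • Y₁ + τ s • Y₂ := rfl

omit [DecidableEq m] in
theorem XX2_mul {τ : k →+ k} {Y₁ Y₂ : Matrix m m k} (h11 : Y₁ * Y₁ = 0) (h12 : Y₁ * Y₂ = 0)
    (h21 : Y₂ * Y₁ = 0) (h22 : Y₂ * Y₂ = 0) (s t : k) : XX2 τ Y₁ Y₂ s * XX2 τ Y₁ Y₂ t = 0 := by
  rw [XX2_apply, XX2_apply, add_mul, mul_add, mul_add]
  simp only [Matrix.smul_mul, Matrix.mul_smul, h11, h12, h21, h22, smul_zero, add_zero]

omit [Fintype m] [DecidableEq m] in
theorem XX2_low {τ : k →+ k} {Y₁ Y₂ : Matrix m m k} (h : ∃ i i', Y₁ i i' ≠ 0 ∧ Y₂ i i' = 0) :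
    ∃ c : ℝ, ∀ s, ∃ i i', ‖s‖ ≤ c * ‖XX2 τ Y₁ Y₂ s i i'‖ := by
  obtain ⟨i, i', h1, h2⟩ := h
  refine ⟨‖Y₁ i i'‖⁻¹, fun s => ⟨i, i', ?_⟩⟩
  have h3 : XX2 τ Y₁ Y₂ s i i' = s * Y₁ i i' := by
    rw [XX2_apply, Matrix.add_apply, Matrix.smul_apply, Matrix.smul_apply, h2, smul_zero, add_zero,
      smul_eq_mul]
  have h4 : ‖Y₁ i i'‖ ≠ 0 := norm_ne_zero_iff.2 h1
  rw [h3, norm_mul, mul_comm ‖s‖, ← mul_assoc, inv_mul_cancel₀ h4, one_mul]

omit [DecidableEq m] in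
theorem XX2_conj {τ : k →+ k} {Y₁ Y₂ B : Matrix m m k} {c : kˣ} {c' : k}
    (hb1 : B * Y₁ = (c : k) • (Y₁ * B)) (hb2 : B * Y₂ = c' • (Y₂ * B))
    (hτ : ∀ s, τ ((c : k) * s) = c' * τ s) (s : k) :
    B * XX2 τ Y₁ Y₂ s = XX2 τ Y₁ Y₂ (dilV (k := k) c s) * B := by
  rw [dilV_apply, smul_eq_mul, XX2_apply, XX2_apply, hτ, mul_add, add_mul, Matrix.mul_smul,
    Matrix.mul_smul, hb1, hb2, Matrix.smul_mul, Matrix.smul_mul, smul_smul, smul_smul]
  congr 2
  · ring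
  · ring

/-- `s ↦ s Y` on an additive subgroup -/
def XS (S : AddSubgroup k) (Y : Matrix m m k) : S →+ Matrix m m k where
  toFun s := (s : k) • Y
  map_zero' := by simp
  map_add' s t := by
    rw [AddSubgroup.coe_add, add_smul]

omit [Fintype m] [DecidableEq m] in
theorem XS_apply (S : AddSubgroup k) (Y : Matrix m m k) (s : S) : XS S Y s = (s : k) • Y := rfl

omit [DecidableEq m] in
theorem XS_mul {S : AddSubgroup k} {Y : Matrix m m k} (h : Y * Y = 0) (s t : S) :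
    XS S Y s * XS S Y t = 0 := by
  rw [XS_apply, XS_apply, Matrix.smul_mul, Matrix.mul_smul, h, smul_zero, smul_zero]

omit [Fintype m] [DecidableEq m] in
theorem XS_low {S : AddSubgroup k} {Y : Matrix m m k} (h : Y ≠ 0) :
    ∃ c : ℝ, ∀ s, ∃ i i', ‖s‖ ≤ c * ‖XS S Y s i i'‖ := by
  obtain ⟨i, i', h1⟩ : ∃ i i', Y i i' ≠ 0 := by
    by_contra hcon
    push Not at hcon
    exact h (Matrix.ext hcon)
  refine ⟨‖Y i i'‖⁻¹, fun s => ⟨i, i', ?_⟩⟩
  have h4 : ‖Y i i'‖ ≠ 0 := norm_ne_zero_iff.2 h1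
  rw [XS_apply, Matrix.smul_apply, smul_eq_mul, norm_mul, mul_comm ‖(s : k)‖, ← mul_assoc,
    inv_mul_cancel₀ h4, one_mul]
  exact le_rfl

omit [DecidableEq m] in
theorem XS_conj {S : AddSubgroup k} {Y B : Matrix m m k} {c : kˣ}
    (h : ∀ x ∈ S, (c : k) * x ∈ S) (h' : ∀ x ∈ S, ((c⁻¹ : kˣ) : k) * x ∈ S)
    (hb : B * Y = (c : k) • (Y * B)) (s : S) :
    B * XS S Y s = XS S Y (dilS S c h h' s) * B := by
  rw [XS_apply, XS_apply, dilS_apply, Matrix.mul_smul, hb, Matrix.smul_mul, smul_smul, mul_comm]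

end two

/-! ### `Spr` and the orbit property for the root groups -/

section orb

open Vale.Agent.P092.SR Vale.Agent.P092.H160 Vale.Agent.P092.H368
open Vale.Agent.P092.RC (Cm KK pic XX Om lam₁ lam₂)
open Vale.Agent.P092.H790.CTA (ORBG)

variable {k : Type} [NontriviallyNormedField k] [ProperSpace k] [MeasurableSpace k] [BorelSpace k]
  {m : Type} [Fintype m] [DecidableEq m]
  {G₀ : Type} [Group G₀] [TopologicalSpace G₀] {j : G₀ →* Matrix m m k}
  (hj : Function.Injective j) (hji : IsInducing j)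

omit [ProperSpace k] [MeasurableSpace k] [BorelSpace k] in
include hji in
/-- continuity of a family of matrices -/
theorem cont_fam {P : Type} [TopologicalSpace P] {n : P → G₀} {X : P → Matrix m m k}
    (hn : ∀ s, j (n s) = 1 + X s) (hX : ∀ i i', Continuous fun s => X s i i') : Continuous n := by
  rw [hji.continuous_iff]
  have h1 : (j ∘ n) = fun s => 1 + X s := funext hn
  rw [h1]
  refine continuous_const.add ?_
  exact continuous_pi fun i => continuous_pi fun i' => hX i i'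

section short

variable {μ : Measure k} [μ.IsAddHaarMeasure] {n : k → G₀} {τ : k →+ k} (hτc : Continuous τ)
  {Y₁ Y₂ : Matrix m m k} (hn : ∀ s, j (n s) = 1 + (s • Y₁ + τ s • Y₂))
  (h11 : Y₁ * Y₁ = 0) (h12 : Y₁ * Y₂ = 0) (h21 : Y₂ * Y₁ = 0) (h22 : Y₂ * Y₂ = 0)
  (hY : ∃ i i', Y₁ i i' ≠ 0 ∧ Y₂ i i' = 0) {b : G₀} {c : kˣ} (hc : 1 < ‖(c : k)‖) {c' : k}
  (hb1 : j b * Y₁ = (c : k) • (Y₁ * j b)) (hb2 : j b * Y₂ = c' • (Y₂ * j b))
  (hτ : ∀ s, τ ((c : k) * s) = c' * τ s)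

omit [ProperSpace k] [MeasurableSpace k] [BorelSpace k] in
include hji hn hτc in
theorem short_cont : Continuous n := by
  refine cont_fam hji (X := fun s => s • Y₁ + τ s • Y₂) hn fun i i' => ?_
  change Continuous fun s => (s • Y₁ + τ s • Y₂) i i'
  simp only [Matrix.add_apply, Matrix.smul_apply, smul_eq_mul]
  exact (continuous_id.mul continuous_const).add (hτc.mul continuous_const)

include hj hji hn h11 h12 h21 h22 hY hb1 hb2 hτ in
theorem short_spr : Spr μ b n (rt (dilV (k := k) (P := k) c)) :=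
  spr_mat (X := XX2 τ Y₁ Y₂) hj hji.continuous hn (XX2_mul h11 h12 h21 h22) (XX2_low hY)
    (dilV c) (XX2_conj hb1 hb2 hτ)

variable {E : Type} [Group E] [TopologicalSpace E] [IsTopologicalGroup E] [LocallyCompactSpace E]
  [SecondCountableTopology E] [T2Space E] [MeasurableSpace E] [BorelSpace E]
  {ι : G₀ →* E} (hιc : Continuous ι) (hι : PrpG ι)
  {Γ : Subgroup E} [DiscreteTopology Γ] [MeasurableSpace (E ⧸ Γ)] [BorelSpace (E ⧸ Γ)]
  {ν : Measure (E ⧸ Γ)} [IsProbabilityMeasure ν] [Countable Γ]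
  (hν : ∀ g : E, ν.map (fun x => g • x) = ν)
  {Λ : Type} [Group Λ] {α : Γ →* (Ell2 Λ →L[ℂ] Ell2 Λ)} (hα : Frame α)

omit [ProperSpace k] [MeasurableSpace k] [BorelSpace k] in
theorem dilV_exp (c : kˣ) (s : k) : ‖(c : k)‖ * ‖s‖ ≤ ‖dilV (k := k) c s‖ := by
  rw [dilV_apply, smul_eq_mul, norm_mul]

include hj hji hτc hn h11 h12 h21 h22 hY hc hb1 hb2 hτ hιc hι

/-- short root groups, leg 1 -/
theorem short_orb₁ : ∃ ρ : ℝ, 0 < ρ ∧ ρ < 1 ∧ ORBG μ (ι b) (fun s => ι (n s)) ρ (pic hν hα)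
    (lam₁ ν α) (XX ν Λ ∪ Set.range (lam₂ ν α)) (Om ν Λ) :=
  orbG₁ hιc hι hν hα (short_cont hji hτc hn) hc (dilV_exp c) ⟨1, one_ne_zero⟩
    (short_spr hj hji hn h11 h12 h21 h22 hY hb1 hb2 hτ)

/-- short root groups, leg 2 -/
theorem short_orb₂ : ∃ ρ : ℝ, 0 < ρ ∧ ρ < 1 ∧ ORBG μ (ι b) (fun s => ι (n s)) ρ (pic hν hα)
    (lam₂ ν α) (XX ν Λ ∪ Set.range (lam₁ ν α)) (Om ν Λ) :=
  orbG₂ hιc hι hν hα (short_cont hji hτc hn) hc (dilV_exp c) ⟨1, one_ne_zero⟩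
    (short_spr hj hji hn h11 h12 h21 h22 hY hb1 hb2 hτ)

end short

section long

variable {S : AddSubgroup k} [ProperSpace S] {μ : Measure S} [μ.IsAddHaarMeasure] [μ.Regular]
  {n : S → G₀}
  {Y : Matrix m m k} (hn : ∀ s : S, j (n s) = 1 + (s : k) • Y) (hYY : Y * Y = 0) (hY : Y ≠ 0)
  {b : G₀} {c : kˣ} (hc : 1 < ‖(c : k)‖) (h : ∀ x ∈ S, (c : k) * x ∈ S)
  (h' : ∀ x ∈ S, ((c⁻¹ : kˣ) : k) * x ∈ S) (hb : j b * Y = (c : k) • (Y * j b))
  (hS : ∃ s : S, s ≠ 0)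

omit [ProperSpace k] [MeasurableSpace k] [BorelSpace k] [ProperSpace S] in
include hji hn in
theorem long_cont : Continuous n := by
  refine cont_fam hji (X := fun s : S => (s : k) • Y) hn fun i i' => ?_
  change Continuous fun s : S => ((s : k) • Y) i i'
  simp only [Matrix.smul_apply, smul_eq_mul]
  exact continuous_subtype_val.mul continuous_const

omit [ProperSpace k] in
include hj hji hn hYY hY hb in
theorem long_spr : Spr μ b n (rt (dilS S c h h')) :=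
  spr_mat (X := XS S Y) hj hji.continuous hn (XS_mul hYY) (XS_low hY) (dilS S c h h')
    (XS_conj h h' hb)

omit [ProperSpace k] [MeasurableSpace k] [BorelSpace k] [ProperSpace S] in
theorem dilS_exp (s : S) : ‖(c : k)‖ * ‖s‖ ≤ ‖dilS S c h h' s‖ := by
  rw [AddSubgroup.coe_norm, AddSubgroup.coe_norm, dilS_apply, norm_mul]

variable {E : Type} [Group E] [TopologicalSpace E] [IsTopologicalGroup E] [LocallyCompactSpace E]
  [SecondCountableTopology E] [T2Space E] [MeasurableSpace E] [BorelSpace E]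
  {ι : G₀ →* E} (hιc : Continuous ι) (hι : PrpG ι)
  {Γ : Subgroup E} [DiscreteTopology Γ] [MeasurableSpace (E ⧸ Γ)] [BorelSpace (E ⧸ Γ)]
  {ν : Measure (E ⧸ Γ)} [IsProbabilityMeasure ν] [Countable Γ]
  (hν : ∀ g : E, ν.map (fun x => g • x) = ν)
  {Λ : Type} [Group Λ] {α : Γ →* (Ell2 Λ →L[ℂ] Ell2 Λ)} (hα : Frame α)

include hj hji hn hYY hY hc h h' hb hS hιc hι

/-- long root groups, leg 1 -/
theorem long_orb₁ : ∃ ρ : ℝ, 0 < ρ ∧ ρ < 1 ∧ ORBG μ (ι b) (fun s => ι (n s)) ρ (pic hν hα)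
    (lam₁ ν α) (XX ν Λ ∪ Set.range (lam₂ ν α)) (Om ν Λ) :=
  orbG₁ hιc hι hν hα (long_cont hji hn) hc (dilS_exp h h') hS
    (long_spr hj hji hn hYY hY h h' hb)

/-- long root groups, leg 2 -/
theorem long_orb₂ : ∃ ρ : ℝ, 0 < ρ ∧ ρ < 1 ∧ ORBG μ (ι b) (fun s => ι (n s)) ρ (pic hν hα)
    (lam₂ ν α) (XX ν Λ ∪ Set.range (lam₁ ν α)) (Om ν Λ) :=
  orbG₂ hιc hι hν hα (long_cont hji hn) hc (dilS_exp h h') hS
    (long_spr hj hji hn hYY hY h h' hb)

end long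

end orb

end Vale.Agent.P092.H71.P
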