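import Vale.Agent.P092.H71.P.Spr

/-!
P092 (helper71), TEAM P, block [P-ORB], part 2: the root groups of `Sp_4(k)` (form
`J = (e_0, e_3), (e_1, e_2)`, columns) and the unipotent radicals of the stabilisers of the point
`[e_0]` (Heisenberg) and of the line `⟨e_0, e_1⟩` (abelian) under the two wall elements
`diag(w⁻¹,1,1,w)` and `diag(w⁻¹,w⁻¹,w,w)`; stated for every subgroup `H` of `SL_4(k)` which contains
them.
-/

set_option linter.all false

open MeasureTheory Filter Topology MeasureTheory.Measure Set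
open scoped NNReal Pointwise ENNReal

namespace Vale.Agent.P092.H71.P

open Vale.Agent.P092.H368.SN

/-! ### The root groups and the walls of `Sp_4(k)` -/

section sp4

open Matrix

variable {k : Type} [NontriviallyNormedField k]

/-- the entries of the wall of a point -/
def d1 (w : kˣ) : Fin 4 → k := ![((w⁻¹ : kˣ) : k), 1, 1, (w : k)]

/-- the entries of the wall of a line -/
def d2 (w : kˣ) : Fin 4 → k := ![((w⁻¹ : kˣ) : k), ((w⁻¹ : kˣ) : k), (w : k), (w : k)]

/-- directions of the root groups -/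
def xlg : Matrix (Fin 4) (Fin 4) k := !![0,0,0,1; 0,0,0,0; 0,0,0,0; 0,0,0,0]
def xlg' : Matrix (Fin 4) (Fin 4) k := !![0,0,0,0; 0,0,1,0; 0,0,0,0; 0,0,0,0]
def xsh : Matrix (Fin 4) (Fin 4) k := !![0,1,0,0; 0,0,0,0; 0,0,0,-1; 0,0,0,0]
def xsh' : Matrix (Fin 4) (Fin 4) k := !![0,0,1,0; 0,0,0,1; 0,0,0,0; 0,0,0,0]

theorem wcancel (w : kˣ) : ((w⁻¹ : kˣ) : k) * (w : k) = 1 := by
  rw [← Units.val_mul]; simp

theorem wcancel' (w : kˣ) : (w : k) * ((w⁻¹ : kˣ) : k) = 1 := by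
  rw [← Units.val_mul]; simp

theorem wsq (w : kˣ) : (((w ^ 2)⁻¹ : kˣ) : k) = ((w⁻¹ : kˣ) : k) * ((w⁻¹ : kˣ) : k) := by
  rw [← inv_pow, Units.val_pow_eq_pow_val, sq]

theorem xlg_ne : (xlg : Matrix (Fin 4) (Fin 4) k) ≠ 0 := by
  intro h
  have := congrFun (congrFun h 0) 3
  simp [xlg] at this

theorem xlg'_ne : (xlg' : Matrix (Fin 4) (Fin 4) k) ≠ 0 := by
  intro h
  have := congrFun (congrFun h 1) 2
  simp [xlg'] at this

theorem xsh_ne : (xsh : Matrix (Fin 4) (Fin 4) k) ≠ 0 := by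
  intro h
  have := congrFun (congrFun h 0) 1
  simp [xsh] at this

theorem xsh'_ne : (xsh' : Matrix (Fin 4) (Fin 4) k) ≠ 0 := by
  intro h
  have := congrFun (congrFun h 0) 2
  simp [xsh'] at this

theorem xlg_sq : (xlg : Matrix (Fin 4) (Fin 4) k) * xlg = 0 := by
  ext i j
  fin_cases i <;> fin_cases j <;> simp [xlg, Matrix.mul_apply, Fin.sum_univ_four]

theorem xlg'_sq : (xlg' : Matrix (Fin 4) (Fin 4) k) * xlg' = 0 := by
  ext i j
  fin_cases i <;> fin_cases j <;> simp [xlg', Matrix.mul_apply, Fin.sum_univ_four]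

theorem xsh_sq : (xsh : Matrix (Fin 4) (Fin 4) k) * xsh = 0 := by
  ext i j
  fin_cases i <;> fin_cases j <;> simp [xsh, Matrix.mul_apply, Fin.sum_univ_four]

theorem xsh'_sq : (xsh' : Matrix (Fin 4) (Fin 4) k) * xsh' = 0 := by
  ext i j
  fin_cases i <;> fin_cases j <;> simp [xsh', Matrix.mul_apply, Fin.sum_univ_four]

theorem d1_xlg (w : kˣ) : Matrix.diagonal (d1 w) * xlg =
    (((w ^ 2)⁻¹ : kˣ) : k) • (xlg * Matrix.diagonal (d1 w)) := by
  have h := wcancel w
  refine diag_conj fun i j hX => ?_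
  rw [wsq]
  fin_cases i <;> fin_cases j <;> simp [xlg] at hX <;> simp [d1]

theorem d1_xsh (w : kˣ) : Matrix.diagonal (d1 w) * xsh =
    ((w⁻¹ : kˣ) : k) • (xsh * Matrix.diagonal (d1 w)) := by
  refine diag_conj fun i j hX => ?_
  fin_cases i <;> fin_cases j <;> simp [xsh] at hX <;> simp [d1]

theorem d1_xsh' (w : kˣ) : Matrix.diagonal (d1 w) * xsh' =
    ((w⁻¹ : kˣ) : k) • (xsh' * Matrix.diagonal (d1 w)) := by
  refine diag_conj fun i j hX => ?_
  fin_cases i <;> fin_cases j <;> simp [xsh'] at hX <;> simp [d1]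

theorem d2_xlg (w : kˣ) : Matrix.diagonal (d2 w) * xlg =
    (((w ^ 2)⁻¹ : kˣ) : k) • (xlg * Matrix.diagonal (d2 w)) := by
  refine diag_conj fun i j hX => ?_
  rw [wsq]
  fin_cases i <;> fin_cases j <;> simp [xlg] at hX <;> simp [d2]

theorem d2_xlg' (w : kˣ) : Matrix.diagonal (d2 w) * xlg' =
    (((w ^ 2)⁻¹ : kˣ) : k) • (xlg' * Matrix.diagonal (d2 w)) := by
  refine diag_conj fun i j hX => ?_
  rw [wsq]
  fin_cases i <;> fin_cases j <;> simp [xlg'] at hX <;> simp [d2]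

theorem d2_xsh' (w : kˣ) : Matrix.diagonal (d2 w) * xsh' =
    (((w ^ 2)⁻¹ : kˣ) : k) • (xsh' * Matrix.diagonal (d2 w)) := by
  refine diag_conj fun i j hX => ?_
  rw [wsq]
  fin_cases i <;> fin_cases j <;> simp [xsh'] at hX <;> simp [d2]

end sp4

section fam

open Matrix

variable {k : Type} [NontriviallyNormedField k]

/-- the matrices of the unipotent radical of the stabiliser of a line -/
def Lnl : (Fin 3 → k) →ₗ[k] Matrix (Fin 4) (Fin 4) k where
  toFun s := s 0 • xlg + s 1 • xsh' + s 2 • xlg'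
  map_add' s t := by
    simp only [Pi.add_apply, add_smul]
    abel
  map_smul' c s := by
    simp only [Pi.smul_apply, smul_eq_mul, mul_smul, smul_add, RingHom.id_apply]

theorem Lnl_apply (s : Fin 3 → k) : Lnl s = !![0,0,s 1,s 0; 0,0,s 2,s 1; 0,0,0,0; 0,0,0,0] := by
  change s 0 • (xlg : Matrix (Fin 4) (Fin 4) k) + s 1 • xsh' + s 2 • xlg' = _
  ext i j
  fin_cases i <;> fin_cases j <;> simp [xlg, xsh', xlg']

theorem Lnl_mul (s t : Fin 3 → k) : Lnl s * Lnl t = 0 := by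
  rw [Lnl_apply, Lnl_apply]
  ext i j
  fin_cases i <;> fin_cases j <;> simp [Matrix.mul_apply, Fin.sum_univ_four]

theorem Lnl_inj : Function.Injective (Lnl : (Fin 3 → k) →ₗ[k] Matrix (Fin 4) (Fin 4) k) := by
  intro s t h
  rw [Lnl_apply, Lnl_apply] at h
  have h0 := congrFun (congrFun h 0) 3
  have h1 := congrFun (congrFun h 0) 2
  have h2 := congrFun (congrFun h 1) 2
  simp at h0 h1 h2
  funext i
  fin_cases i
  · exact h0
  · exact h1
  · exact h2

/-- the matrices `v ↦ v 0 (E_01 - E_23) + v 1 (E_02 + E_13)` -/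
def Anc : (Fin 2 → k) →ₗ[k] Matrix (Fin 4) (Fin 4) k where
  toFun v := v 0 • xsh + v 1 • xsh'
  map_add' s t := by
    simp only [Pi.add_apply, add_smul]
    abel
  map_smul' c s := by
    simp only [Pi.smul_apply, smul_eq_mul, mul_smul, smul_add, RingHom.id_apply]

theorem Anc_apply (v : Fin 2 → k) :
    Anc v = !![0,v 0,v 1,0; 0,0,0,v 1; 0,0,0,-v 0; 0,0,0,0] := by
  change v 0 • (xsh : Matrix (Fin 4) (Fin 4) k) + v 1 • xsh' = _
  ext i j
  fin_cases i <;> fin_cases j <;> simp [xsh, xsh']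

/-- the symplectic form on the Heisenberg group -/
def omH (v v' : Fin 2 → k) : k := v 0 * v' 1 - v 1 * v' 0

theorem omH_cont (v' : Fin 2 → k) : Continuous fun v => omH v v' :=
  ((continuous_apply 0).mul continuous_const).sub ((continuous_apply 1).mul continuous_const)

theorem omH_sub (v v' : Fin 2 → k) : omH (v - v') v' = omH v v' := by
  unfold omH
  simp only [Pi.sub_apply]
  ring

theorem Anc_mul (v v' : Fin 2 → k) : Anc v * Anc v' = omH v v' • xlg := by
  rw [Anc_apply, Anc_apply]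
  ext i j
  fin_cases i <;> fin_cases j <;>
    simp [Matrix.mul_apply, Fin.sum_univ_four, xlg, omH]
  ring

theorem Anc_xlg (v : Fin 2 → k) : Anc v * xlg = 0 := by
  rw [Anc_apply]
  ext i j
  fin_cases i <;> fin_cases j <;> simp [Matrix.mul_apply, Fin.sum_univ_four, xlg]

theorem xlg_Anc (v : Fin 2 → k) : xlg * Anc v = 0 := by
  rw [Anc_apply]
  ext i j
  fin_cases i <;> fin_cases j <;> simp [Matrix.mul_apply, Fin.sum_univ_four, xlg]

theorem Anc_inj (v : Fin 2 → k) (z : k) (h : Anc v + z • xlg = 0) : v = 0 ∧ z = 0 := by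
  rw [Anc_apply] at h
  have h0 := congrFun (congrFun h 0) 1
  have h1 := congrFun (congrFun h 0) 2
  have h2 := congrFun (congrFun h 0) 3
  simp [xlg] at h0 h1 h2
  refine ⟨?_, h2⟩
  funext i
  fin_cases i
  · exact h0
  · exact h1

/-- the unipotent radical of the stabiliser of the line `l0` (abelian), in `SL_4` -/
def nlM (s : Fin 3 → k) : SpecialLinearGroup (Fin 4) k :=
  ⟨1 + Lnl s, by
    rw [Lnl_apply]
    have e : (1 : Matrix (Fin 4) (Fin 4) k) + !![0,0,s 1,s 0; 0,0,s 2,s 1; 0,0,0,0; 0,0,0,0] =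
        !![1,0,s 1,s 0; 0,1,s 2,s 1; 0,0,1,0; 0,0,0,1] := by
      ext i j
      fin_cases i <;> fin_cases j <;> simp
    rw [e, Matrix.det_succ_row_zero]
    simp [Fin.sum_univ_succ, Matrix.det_fin_three, Fin.succAbove, Matrix.submatrix]⟩

/-- the unipotent radical of the stabiliser of the point `y0` (Heisenberg), in `SL_4` -/
def ncM (p : (Fin 2 → k) × k) : SpecialLinearGroup (Fin 4) k :=
  ⟨1 + Anc p.1 + p.2 • xlg, by
    rw [Anc_apply]
    have e : (1 : Matrix (Fin 4) (Fin 4) k) +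
        !![0,p.1 0,p.1 1,0; 0,0,0,p.1 1; 0,0,0,-p.1 0; 0,0,0,0] + p.2 • xlg =
        !![1,p.1 0,p.1 1,p.2; 0,1,0,p.1 1; 0,0,1,-p.1 0; 0,0,0,1] := by
      ext i j
      fin_cases i <;> fin_cases j <;> simp [xlg]
    rw [e, Matrix.det_succ_row_zero]
    simp [Fin.sum_univ_succ, Matrix.det_fin_three, Fin.succAbove, Matrix.submatrix]⟩

theorem nlM_coe (s : Fin 3 → k) : (nlM s).1 = 1 + Lnl s := rfl

theorem ncM_coe (p : (Fin 2 → k) × k) : (ncM p).1 = 1 + Anc p.1 + p.2 • xlg := rfl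

end fam

section spr

open Matrix

variable {k : Type} [NontriviallyNormedField k] [ProperSpace k] [MeasurableSpace k] [BorelSpace k]
  {μ : Measure k} [μ.IsAddHaarMeasure] {H : Subgroup (SpecialLinearGroup (Fin 4) k)} {b : H} {w : kˣ}

/-- the Heisenberg group under the wall of its point -/
theorem spr_nc {n : (Fin 2 → k) × k → H} (hn : ∀ p, (n p).1.1 = 1 + Anc p.1 + p.2 • xlg)
    (hb : b.1.1 = Matrix.diagonal (d1 w)) :
    Spr ((Measure.pi fun _ : Fin 2 => μ).prod μ) b n (md w ^ 4) := by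
  have h := spr_heis_mat (μ := μ) (κ := Fin 2) (n := fun p => (n p).1) (b := b.1) Anc xlg omH
    omH_cont Anc_inj (fun v z => hn (v, z)) Anc_mul Anc_xlg xlg_Anc xlg_sq omH_sub (fun _ => w) (w ^ 2)
    (fun v => ?_) (by rw [hb]; exact d1_xlg w)
  · have e : (∏ _i : Fin 2, md w) * md (w ^ 2) = md w ^ 4 := by
      rw [Finset.prod_const, Finset.card_univ, Fintype.card_fin, md_pow]
      ring
    rw [e] at h
    exact spr_sub h
  · have e : Anc (fun i => ((w⁻¹ : kˣ) : k) * v i) = ((w⁻¹ : kˣ) : k) • Anc v := by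
      rw [← map_smul]
      rfl
    rw [e, hb]
    have h1 : Anc v = v 0 • (xsh : Matrix (Fin 4) (Fin 4) k) + v 1 • xsh' := rfl
    rw [h1, mul_add, Matrix.mul_smul, Matrix.mul_smul, d1_xsh, d1_xsh', Matrix.smul_mul, add_mul,
      Matrix.smul_mul, Matrix.smul_mul, smul_add, smul_comm (v 0), smul_comm (v 1)]

/-- the abelian radical of the line under the wall of the line -/
theorem spr_nl {n : (Fin 3 → k) → H} (hn : ∀ s, (n s).1.1 = 1 + Lnl s)
    (hb : b.1.1 = Matrix.diagonal (d2 w)) :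
    Spr (Measure.pi fun _ : Fin 3 => μ) b n (md w ^ 6) := by
  have h := spr_lin (μ := μ) (κ := Fin 3) (n := fun s => (n s).1) (b := b.1) Lnl Lnl_inj hn Lnl_mul
    (fun _ => w ^ 2) (fun s => ?_)
  · have e : (∏ _i : Fin 3, md (w ^ 2)) = md w ^ 6 := by
      rw [Finset.prod_const, Finset.card_univ, Fintype.card_fin, md_pow]
      ring
    rw [e] at h
    exact spr_sub h
  · have e : Lnl (fun i => (((w ^ 2)⁻¹ : kˣ) : k) * s i) = (((w ^ 2)⁻¹ : kˣ) : k) • Lnl s := by
      rw [← map_smul]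
      rfl
    rw [e, hb]
    have h1 : Lnl s = s 0 • (xlg : Matrix (Fin 4) (Fin 4) k) + s 1 • xsh' + s 2 • xlg' := rfl
    rw [h1, mul_add, mul_add, Matrix.mul_smul, Matrix.mul_smul, Matrix.mul_smul, d2_xlg, d2_xsh',
      d2_xlg', Matrix.smul_mul, add_mul, add_mul, Matrix.smul_mul, Matrix.smul_mul,
      Matrix.smul_mul, smul_add, smul_add, smul_comm (s 0), smul_comm (s 1), smul_comm (s 2)]

variable {n : k → H}

theorem spr_lg (hn : ∀ s, (n s).1.1 = 1 + s • xlg) (hb : b.1.1 = Matrix.diagonal (d1 w)) :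
    Spr μ b n (md w ^ 2) := by
  rw [← md_pow]
  exact spr_sub (spr_one (n := fun s => (n s).1) xlg_ne hn xlg_sq (by rw [hb]; exact d1_xlg w))

theorem spr_sh (hn : ∀ s, (n s).1.1 = 1 + s • xsh) (hb : b.1.1 = Matrix.diagonal (d1 w)) :
    Spr μ b n (md w) :=
  spr_sub (spr_one (n := fun s => (n s).1) xsh_ne hn xsh_sq (by rw [hb]; exact d1_xsh w))

theorem spr_sh' (hn : ∀ s, (n s).1.1 = 1 + s • xsh') (hb : b.1.1 = Matrix.diagonal (d1 w)) :
    Spr μ b n (md w) :=
  spr_sub (spr_one (n := fun s => (n s).1) xsh'_ne hn xsh'_sq (by rw [hb]; exact d1_xsh' w))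

theorem spr2_lg (hn : ∀ s, (n s).1.1 = 1 + s • xlg) (hb : b.1.1 = Matrix.diagonal (d2 w)) :
    Spr μ b n (md w ^ 2) := by
  rw [← md_pow]
  exact spr_sub (spr_one (n := fun s => (n s).1) xlg_ne hn xlg_sq (by rw [hb]; exact d2_xlg w))

theorem spr2_lg' (hn : ∀ s, (n s).1.1 = 1 + s • xlg') (hb : b.1.1 = Matrix.diagonal (d2 w)) :
    Spr μ b n (md w ^ 2) := by
  rw [← md_pow]
  exact spr_sub (spr_one (n := fun s => (n s).1) xlg'_ne hn xlg'_sq (by rw [hb]; exact d2_xlg' w))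

theorem spr2_sh' (hn : ∀ s, (n s).1.1 = 1 + s • xsh') (hb : b.1.1 = Matrix.diagonal (d2 w)) :
    Spr μ b n (md w ^ 2) := by
  rw [← md_pow]
  exact spr_sub (spr_one (n := fun s => (n s).1) xsh'_ne hn xsh'_sq (by rw [hb]; exact d2_xsh' w))

end spr

end Vale.Agent.P092.H71.P
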